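import Vale.Agent.P281.H68.TM.Th
import Vale.Agent.P281.H615.TM.LatQ

/-!
# T-M, block M2: the finite family of canonical forms `Θ_k`, `k ∈ K`, and their combinations
-/

open scoped Manifold ContDiff Topology
open Set Filter Metric Module

namespace Vale.Agent.P281.H68.TM

open Vale.Agent.P281 Vale.Agent.P281.MF Vale.Agent.P281.ISO Vale.Agent.P281.ELL
open Vale.Agent.P281.H713

set_option linter.unusedSectionVars false

universe u

theorem eq_two {n : ℕ} (P : (Fin n → ℝ) ≃L[ℝ] ℂ) : n = 2 := by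
  have h := P.toLinearEquiv.finrank_eq
  rwa [Module.finrank_fin_fun, Complex.finrank_real_complex] at h

section Fam

variable {E E' : Type} [NormedAddCommGroup E] [NormedSpace ℂ E] [FiniteDimensional ℂ E]
  [NormedAddCommGroup E'] [NormedSpace ℂ E'] [FiniteDimensional ℂ E']
variable {X Y : Type u} [TopologicalSpace X] [ChartedSpace E X] [IsManifold 𝓘(ℂ, E) ω X]
  [TopologicalSpace Y] [ChartedSpace E' Y] [IsManifold 𝓘(ℂ, E') ω Y]
variable {n : ℕ} {Q : (Fin n → ℝ) → (Fin n → ℝ) → ℝ}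
variable {f : X → Y} {S : Set Y} {ι : Type u} {U : ι → Set Y}
  {π : ι → Y → ((Fin n → ℝ) ≃L[ℝ] ℂ)} {u : ι → Y → ℂ → X}

theorem cf_gk' {k : ℕ} (hk3 : 3 ≤ k) (hT : IsTorusFamily E E' f S Q U π u) :
    Cf E' Q U π u k (fun a y => gk k (π a y)) where
  change := fun _ _ _ _ _ _ hG => gk_change hG k
  hol := fun a y hy => gk_hol (by have := eq_two (π a y); omega) hT.toIsPeriodFamily hy
  bound := fun _ hr => gk_slice hk3 hT hr

/-- the combination `∑ c_k G_k ^ (W / k)` -/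
noncomputable def cb (K : Finset ℕ) (W : ℕ) (c : ℕ → ℂ) {n : ℕ} (P : (Fin n → ℝ) ≃L[ℝ] ℂ) : ℂ :=
  ∑ k ∈ K, c k * gk k P ^ (W / k)

theorem cf_cb {K : Finset ℕ} (hK : ∀ k ∈ K, 3 ≤ k) {W : ℕ} (hW : ∀ k ∈ K, k ∣ W) (c : ℕ → ℂ)
    (hT : IsTorusFamily E E' f S Q U π u) :
    Cf E' Q U π u W (fun a y => cb K W c (π a y)) := by
  refine Cf.sum K fun k hk => ?_
  exact (((cf_gk' (hK k hk) hT).pow (W / k)).congr (Nat.mul_div_cancel' (hW k hk))
    (fun _ _ => rfl)).smul (c k)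

/-- **M2**: the family `Θ_k`, `k ∈ K`, of canonical relative forms, the lower bound and all the
combinations of weight `W` -/
theorem thetas (Q : (Fin n → ℝ) → (Fin n → ℝ) → ℝ) : ∃ (K : Finset ℕ) (c₀ : ℝ), 0 < c₀ ∧
    (∀ k ∈ K, 4 ≤ k ∧ Even k) ∧
    (∀ (P : (Fin n → ℝ) ≃L[ℝ] ℂ) (G : ℂ ≃L[ℂ] ℂ), IsPol Q P G →
      ∃ k ∈ K, c₀ * ‖G 1‖ ^ k ≤ ‖gk k P‖) ∧
    ∀ (f : X → Y) (S : Set Y) (ι : Type u) (U : ι → Set Y) (π : ι → Y → ((Fin n → ℝ) ≃L[ℝ] ℂ))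
      (u : ι → Y → ℂ → X), IsTorusFamily E E' f S Q U π u → (∀ x, HolM E E' f x) →
      ∀ e₀ : E ≃L[ℂ] (E' × ℂ),
      (∀ k ∈ K, ∃ Θ : X → ℂ, (∀ (𝒜 : Set (Set X)) (κ : Set X → ℕ), RelForm f S e₀ k 𝒜 κ Θ) ∧
        ∀ a x ζ, f x ∈ U a → TorCoord E E' f u a x ζ →
          Θ x = gk k (π a (f x)) * JP e₀ (dM E E' f x) (dV E ζ x) ^ k) ∧
      ∀ W : ℕ, (∀ k ∈ K, k ∣ W) → ∀ c : ℕ → ℂ,
        ∃ Θ : X → ℂ, (∀ (𝒜 : Set (Set X)) (κ : Set X → ℕ), RelForm f S e₀ W 𝒜 κ Θ) ∧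
          ∀ a x ζ, f x ∈ U a → TorCoord E E' f u a x ζ →
            Θ x = cb K W c (π a (f x)) * JP e₀ (dM E E' f x) (dV E ζ x) ^ W := by
  obtain ⟨K, c₀, hc, hK, h⟩ := H615.TM.latQ Q
  refine ⟨K, c₀, hc, hK, fun P G hG => h P G hG, ?_⟩
  intro f S ι U π u hT hf e₀
  refine ⟨fun k hk => (cf_gk' (by have := (hK k hk).1; omega) hT).form hT hf e₀, ?_⟩
  intro W hW c
  exact (cf_cb (fun k hk => by have := (hK k hk).1; omega) hW c hT).form hT hf e₀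

/-- some `G_k` does not vanish -/
theorem gk_ne {K : Finset ℕ} {c₀ : ℝ} (hc : 0 < c₀) {P : (Fin n → ℝ) ≃L[ℝ] ℂ}
    {G : ℂ ≃L[ℂ] ℂ} (h : ∃ k ∈ K, c₀ * ‖G 1‖ ^ k ≤ ‖gk k P‖) : ∃ k ∈ K, gk k P ≠ 0 := by
  obtain ⟨k, hk, h1⟩ := h
  refine ⟨k, hk, fun h2 => ?_⟩
  rw [h2, norm_zero] at h1
  have h3 : G 1 ≠ 0 := by
    intro h3
    exact one_ne_zero (G.injective (h3.trans (map_zero G).symm))
  have h4 : 0 < c₀ * ‖G 1‖ ^ k := mul_pos hc (pow_pos (norm_pos_iff.2 h3) k)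
  linarith

/-- the common weight -/
theorem exists_W (K : Finset ℕ) (hK : ∀ k ∈ K, 4 ≤ k) : ∃ W : ℕ, 0 < W ∧ ∀ k ∈ K, k ∣ W :=
  ⟨∏ k ∈ K, k, Finset.prod_pos fun k hk => by have := hK k hk; omega,
    fun _ hk => Finset.dvd_prod_of_mem _ hk⟩

end Fam

section Gen

/-- a linear form, general coefficients: off finitely many proper subspaces -/
theorem exists_coef {K : Type*} [DecidableEq K] (T : Finset K) {J : Type*} (A : Finset J)
    (x : J → K → ℂ) (hx : ∀ j ∈ A, ∃ k ∈ T, x j k ≠ 0) :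
    ∃ c : K → ℂ, ∀ j ∈ A, ∑ k ∈ T, c k * x j k ≠ 0 := by
  classical
  induction A using Finset.induction_on with
  | empty => exact ⟨fun _ => 0, by simp⟩
  | insert j A hj ih =>
    obtain ⟨c, hc⟩ := ih fun i hi => hx i (Finset.mem_insert_of_mem hi)
    obtain ⟨k, hk, hk0⟩ := hx j (Finset.mem_insert_self _ _)
    -- the perturbations `c + s e_k`
    have hsum : ∀ (s : ℂ) (i : J), ∑ l ∈ T, (c l + if l = k then s else 0) * x i l =
        (∑ l ∈ T, c l * x i l) + s * x i k := by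
      intro s i
      simp only [add_mul, Finset.sum_add_distrib, ite_mul, zero_mul, Finset.sum_ite_eq', if_pos hk]
    obtain ⟨s, hs⟩ : ∃ s : ℂ, s ∉ ((insert j A).image fun i => -(∑ l ∈ T, c l * x i l) / x i k :
        Finset ℂ) := Infinite.exists_notMem_finset _
    refine ⟨fun l => c l + if l = k then s else 0, fun i hi => ?_⟩
    show ∑ l ∈ T, (c l + if l = k then s else 0) * x i l ≠ 0
    rw [hsum]
    intro h0
    by_cases hik : x i k = 0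
    · rw [hik, mul_zero, add_zero] at h0
      rcases Finset.mem_insert.1 hi with h1 | h1
      · rw [h1] at hik
        exact hk0 hik
      · exact hc i h1 h0
    · apply hs
      rw [Finset.mem_image]
      refine ⟨i, hi, ?_⟩
      rw [div_eq_iff hik]
      linear_combination -h0

end Gen

end Vale.Agent.P281.H68.TM
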