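import Mathlib.Analysis.Complex.CauchyIntegral
import Mathlib.Analysis.Analytic.IsolatedZeros
import Mathlib.Analysis.Calculus.InverseFunctionTheorem.FDeriv
import Mathlib.Analysis.Calculus.Implicit
import Mathlib.Analysis.Calculus.MeanValue
import Mathlib.Analysis.Complex.Cardinality
import Mathlib.Topology.Separation.CountableSeparatingOn
import Mathlib.Tactic

/-!
# T-M: general combinations have multiplicity at most one (a Bertini theorem for pencils)

No dimension theory: critical values of holomorphic functions of one variable are countable, and a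
countable family of complex lines meets every germ of a smooth hypersurface.
-/

open scoped Topology
open Set Filter Metric

set_option linter.unusedSectionVars false

namespace Vale.Agent.P281.H68.TM

/-- the critical values of a holomorphic function of one variable are countable -/
theorem crit_countable {U : Set ℂ} (hU : IsOpen U) {h : ℂ → ℂ} (hh : DifferentiableOn ℂ h U) :
    {s : ℂ | ∃ t ∈ U, deriv h t = 0 ∧ h t = s}.Countable := by
  classical
  have key : ∀ t ∈ U, ∃ N ∈ 𝓝 t, ∀ t' ∈ N, deriv h t' = 0 → h t' = h t := by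
    intro t ht
    have hA : AnalyticAt ℂ (deriv h) t := (hh.analyticAt (hU.mem_nhds ht)).deriv
    rcases hA.eventually_eq_zero_or_eventually_ne_zero with h1 | h1
    · obtain ⟨r, hr, hr1⟩ := Metric.eventually_nhds_iff_ball.1 (h1.and (hU.eventually_mem ht))
      refine ⟨ball t r, ball_mem_nhds t hr, fun t' ht' _ => ?_⟩
      exact isOpen_ball.is_const_of_deriv_eq_zero (convex_ball t r).isPreconnected
        (hh.mono fun z hz => (hr1 z hz).2) (fun z hz => (hr1 z hz).1) ht' (mem_ball_self hr)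
    · rw [eventually_nhdsWithin_iff] at h1
      refine ⟨_, h1, fun t' ht' h0 => ?_⟩
      by_contra hne
      exact ht' (fun h : t' = t => hne (by rw [h])) h0
  choose! N hN hN' using key
  obtain ⟨T, hTU, hTc, hTcov⟩ := TopologicalSpace.countable_cover_nhdsWithin (s := U) (f := N)
    (fun t ht => mem_nhdsWithin_of_mem_nhds (hN t ht))
  refine (hTc.image h).mono ?_
  rintro s ⟨t, ht, h0, rfl⟩
  obtain ⟨t₀, ht₀, h1⟩ := mem_iUnion₂.1 (hTcov ht)
  exact ⟨t₀, ht₀, (hN' t₀ (hTU ht₀) t h1 h0).symm⟩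

/-- the isolated zeros of a holomorphic function of one variable are countable -/
theorem iso_countable {U : Set ℂ} (hU : IsOpen U) {h : ℂ → ℂ} (hh : DifferentiableOn ℂ h U) :
    {t : ℂ | t ∈ U ∧ h t = 0 ∧ ¬ ∀ᶠ t' in 𝓝 t, h t' = 0}.Countable := by
  classical
  have key : ∀ t ∈ U, ∃ N ∈ 𝓝 t, ∀ t' ∈ N, h t' = 0 → (¬ ∀ᶠ z in 𝓝 t', h z = 0) → t' = t := by
    intro t ht
    rcases (hh.analyticAt (hU.mem_nhds ht)).eventually_eq_zero_or_eventually_ne_zero with h1 | h1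
    · exact ⟨_, eventually_eventually_nhds.2 h1, fun t' ht' _ h2 => absurd ht' h2⟩
    · rw [eventually_nhdsWithin_iff] at h1
      refine ⟨_, h1, fun t' ht' h0 _ => ?_⟩
      by_contra hne
      exact ht' hne h0
  choose! N hN hN' using key
  obtain ⟨T, hTU, hTc, hTcov⟩ := TopologicalSpace.countable_cover_nhdsWithin (s := U) (f := N)
    (fun t ht => mem_nhdsWithin_of_mem_nhds (hN t ht))
  refine hTc.mono ?_
  rintro t ⟨ht, h0, h2⟩
  obtain ⟨t₀, ht₀, h1⟩ := mem_iUnion₂.1 (hTcov ht)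
  rw [hN' t₀ (hTU ht₀) t h1 h0 h2]
  exact ht₀

/-- countably many nonzero linear forms: one vector off all the kernels -/
theorem exists_coef_c {T : Finset ℕ} {J : Type*} [Countable J] (x : J → ℕ → ℂ)
    (hx : ∀ j, ∃ k ∈ T, x j k ≠ 0) : ∃ c : ℕ → ℂ, ∀ j, ∑ k ∈ T, c k * x j k ≠ 0 := by
  classical
  set p : J → Polynomial ℂ := fun j => ∑ k ∈ T, Polynomial.monomial k (x j k) with hp
  have hp0 : ∀ j, p j ≠ 0 := by
    intro j h0
    obtain ⟨k, hk, hk0⟩ := hx j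
    apply hk0
    have h1 : (p j).coeff k = x j k := by
      rw [hp]
      simp only [Polynomial.finsetSum_coeff, Polynomial.coeff_monomial, Finset.sum_ite_eq', if_pos hk]
    rw [← h1, h0, Polynomial.coeff_zero]
  have hev : ∀ j t, (p j).eval t = ∑ k ∈ T, t ^ k * x j k := by
    intro j t
    rw [hp]
    simp only [Polynomial.eval_finsetSum, Polynomial.eval_monomial]
    exact Finset.sum_congr rfl fun k _ => mul_comm _ _
  have hc : (⋃ j, {t : ℂ | (p j).eval t = 0}).Countable := by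
    refine countable_iUnion fun j => ?_
    refine ((p j).roots.toFinset.finite_toSet.countable).mono fun t ht => ?_
    simp only [Finset.mem_coe, Multiset.mem_toFinset]
    exact (Polynomial.mem_roots (hp0 j)).2 ht
  obtain ⟨t, ht⟩ : ∃ t : ℂ, t ∉ ⋃ j, {t : ℂ | (p j).eval t = 0} := by
    by_contra! h
    exact not_countable_complex (hc.mono fun t _ => h t)
  refine ⟨fun k => t ^ k, fun j h => ht (mem_iUnion.2 ⟨j, ?_⟩)⟩
  show (p j).eval t = 0
  rw [hev]
  exact h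

section Line

variable {V : Type*} [NormedAddCommGroup V] [NormedSpace ℂ V] [CompleteSpace V]

/-- lines in a direction transversal to a smooth hypersurface meet it -/
theorem hit {e : V → ℂ} {e' : V →L[ℂ] ℂ} {z v : V} (he : HasStrictFDerivAt e e' z) (h0 : e z = 0)
    (hv : e' v ≠ 0) {ε : ℝ} (hε : 0 < ε) :
    ∀ᶠ w in 𝓝 z, ∃ t : ℂ, ‖t‖ < ε ∧ e (w + t • v) = 0 := by
  set Ψ : V × ℂ → V × ℂ := fun p => (p.1, e (p.1 + p.2 • v)) with hΨ
  set L : V × ℂ →L[ℂ] V := ContinuousLinearMap.fst ℂ V ℂ + (ContinuousLinearMap.snd ℂ V ℂ).smulRight v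
    with hL
  have h1 : HasStrictFDerivAt (fun p : V × ℂ => p.1 + p.2 • v) L (z, (0 : ℂ)) := by
    have h2 := L.hasStrictFDerivAt (x := (z, (0 : ℂ)))
    have h3 : (fun p : V × ℂ => p.1 + p.2 • v) = L := by
      funext p
      simp [hL]
    rw [h3]
    exact h2
  have hz : (fun p : V × ℂ => p.1 + p.2 • v) (z, (0 : ℂ)) = z := by simp
  have he2 : HasStrictFDerivAt (fun p : V × ℂ => e (p.1 + p.2 • v)) (e'.comp L) (z, (0 : ℂ)) := by
    have he1 : HasStrictFDerivAt e e' ((fun p : V × ℂ => p.1 + p.2 • v) (z, (0 : ℂ))) := by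
      rw [hz]
      exact he
    exact he1.comp (z, (0 : ℂ)) h1
  have h2 : HasStrictFDerivAt Ψ ((ContinuousLinearMap.fst ℂ V ℂ).prod (e'.comp L)) (z, (0 : ℂ)) :=
    (ContinuousLinearMap.fst ℂ V ℂ).hasStrictFDerivAt.prodMk he2
  have hsurj : ((ContinuousLinearMap.fst ℂ V ℂ).prod (e'.comp L)).range = ⊤ := by
    rw [LinearMap.range_eq_top]
    rintro ⟨a, b⟩
    refine ⟨(a, (b - e' a) / e' v), ?_⟩
    have h4 : e' (a + ((b - e' a) / e' v) • v) = b := by
      rw [map_add, map_smul, smul_eq_mul, div_mul_cancel₀ _ hv]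
      ring
    exact Prod.ext rfl (by simpa [hL] using h4)
  have h3 := h2.map_nhds_eq_of_surj hsurj
  have h4 : Ψ (z, (0 : ℂ)) = (z, 0) := by
    rw [hΨ]
    simp [h0]
  rw [h4] at h3
  have h5 : {p : V × ℂ | ‖p.2‖ < ε} ∈ 𝓝 (z, (0 : ℂ)) := by
    have : IsOpen {p : V × ℂ | ‖p.2‖ < ε} := isOpen_lt (by fun_prop) (by fun_prop)
    exact this.mem_nhds (by simpa using hε)
  have h6 : Ψ '' {p : V × ℂ | ‖p.2‖ < ε} ∈ 𝓝 (z, (0 : ℂ)) := by
    rw [← h3]
    exact image_mem_map h5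
  have h7 : Tendsto (fun w : V => (w, (0 : ℂ))) (𝓝 z) (𝓝 (z, (0 : ℂ))) :=
    (Continuous.prodMk_left (0 : ℂ)).continuousAt
  filter_upwards [h7 h6] with w hw
  obtain ⟨⟨w', t⟩, ht, hwt⟩ := hw
  rw [hΨ] at hwt
  have h8 := (Prod.ext_iff.1 hwt).1
  have h9 := (Prod.ext_iff.1 hwt).2
  simp only at h8 h9
  subst h8
  exact ⟨t, ht, h9⟩

variable [SecondCountableTopology V]

/-- the dense sequence -/
noncomputable def ds (V : Type*) [NormedAddCommGroup V] [SecondCountableTopology V] : ℕ → V :=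
  TopologicalSpace.denseSeq V

theorem ds_mem {N : Set V} (hN : IsOpen N) (hne : N.Nonempty) : ∃ n, ds V n ∈ N := by
  obtain ⟨x, hx, n, rfl⟩ := (TopologicalSpace.denseRange_denseSeq V).exists_mem_open hN hne |>.elim
    (fun n hn => (⟨_, hn, n, rfl⟩ : ∃ x ∈ N, ∃ n, ds V n = x))
  exact ⟨n, hx⟩

/-- a countable family of lines meets every germ of smooth hypersurface -/
theorem line {e : V → ℂ} {z : V} (he : AnalyticAt ℂ e z) (h0 : e z = 0) (hd : fderiv ℂ e z ≠ 0)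
    {N : Set V} (hN : N ∈ 𝓝 z) : ∃ (j : ℕ) (r : ℝ), 0 < r ∧ ∀ᶠ w in 𝓝 z,
      (∀ t ∈ ball (0 : ℂ) r, w + t • ds V j ∈ N) ∧ ∃ t ∈ ball (0 : ℂ) r, e (w + t • ds V j) = 0 := by
  have h1 : ∃ j, fderiv ℂ e z (ds V j) ≠ 0 := by
    have h2 : IsOpen {v : V | fderiv ℂ e z v ≠ 0} :=
      isOpen_ne_fun (fderiv ℂ e z).continuous continuous_const
    refine ds_mem h2 ?_
    by_contra h3
    rw [not_nonempty_iff_eq_empty] at h3
    apply hd
    ext v
    by_contra h4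
    have : v ∈ ({v : V | fderiv ℂ e z v ≠ 0} : Set V) := h4
    rw [h3] at this
    exact this
  obtain ⟨j, hj⟩ := h1
  have h5 : Tendsto (fun p : V × ℂ => p.1 + p.2 • ds V j) (𝓝 z ×ˢ 𝓝 (0 : ℂ)) (𝓝 z) := by
    have h6 : ContinuousAt (fun p : V × ℂ => p.1 + p.2 • ds V j) (z, 0) := by fun_prop
    have h7 := h6.tendsto
    simp only [zero_smul, add_zero] at h7
    rwa [nhds_prod_eq] at h7
  have h8 := h5 hN
  obtain ⟨W, hW, B, hB, hWB⟩ := Filter.mem_prod_iff.1 h8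
  obtain ⟨r, hr, hrB⟩ := Metric.mem_nhds_iff.1 hB
  refine ⟨j, r, hr, ?_⟩
  filter_upwards [hW, hit he.hasStrictFDerivAt h0 hj hr] with w hw hw2
  refine ⟨fun t ht => hWB (mk_mem_prod hw (hrB ht)), ?_⟩
  obtain ⟨t, ht, ht0⟩ := hw2
  exact ⟨t, by rwa [mem_ball_zero_iff], ht0⟩

/-- **Bertini for pencils**: a general combination has multiplicity at most one along every germ of
smooth hypersurface (and is not killed by any of countably many given linear conditions) -/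
theorem bertini {I : Type*} [Countable I] {T : Finset ℕ} (O : I → Set V) (hO : ∀ i, IsOpen (O i))
    (F : I → ℕ → V → ℂ) (hF : ∀ i, ∀ k ∈ T, DifferentiableOn ℂ (F i k) (O i))
    (hne : ∀ i, ∀ z ∈ O i, ∃ k ∈ T, F i k z ≠ 0)
    {J : Type*} [Countable J] (x : J → ℕ → ℂ) (hx : ∀ j, ∃ k ∈ T, x j k ≠ 0) :
    ∃ c : ℕ → ℂ, (∀ j, ∑ k ∈ T, c k * x j k ≠ 0) ∧
      ∀ i, ∀ z ∈ O i, ∀ e g : V → ℂ, AnalyticAt ℂ e z → AnalyticAt ℂ g z → e z = 0 →
        fderiv ℂ e z ≠ 0 → ¬ ∀ᶠ z' in 𝓝 z, ∑ k ∈ T, c k * F i k z' = e z' ^ 2 * g z' := by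
  classical
  set FF : (ℕ → ℂ) → I → V → ℂ := fun c i z => ∑ k ∈ T, c k * F i k z with hFF
  have hFd : ∀ c i, DifferentiableOn ℂ (FF c i) (O i) := fun c i =>
    DifferentiableOn.fun_sum fun k hk => (hF i k hk).const_mul (c k)
  -- the lines
  set ln : ℕ → ℕ → ℂ → V := fun n j t => ds V n + t • ds V j with hln
  have hlnd : ∀ n j, Differentiable ℂ (ln n j) := fun n j => by
    intro t
    exact (differentiableAt_const _).add (differentiableAt_id.smul_const _)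
  have hlno : ∀ i n j, IsOpen {t : ℂ | ln n j t ∈ O i} := fun i n j =>
    (hO i).preimage (hlnd n j).continuous
  have hlF : ∀ c i n j, DifferentiableOn ℂ (fun t => FF c i (ln n j t)) {t : ℂ | ln n j t ∈ O i} :=
    fun c i n j => (hFd c i).comp (hlnd n j).differentiableOn fun t ht => ht
  -- step 1
  obtain ⟨c₀, hc₀⟩ := exists_coef_c (T := T)
    (fun (p : {p : I × ℕ // ds V p.2 ∈ O p.1}) k => F p.1.1 k (ds V p.1.2))
    (fun p => hne p.1.1 _ p.2)
  -- step 2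
  set Z : I × ℕ × ℕ → Set ℂ := fun p => {t : ℂ | t ∈ {t : ℂ | ln p.2.1 p.2.2 t ∈ O p.1} ∧
    FF c₀ p.1 (ln p.2.1 p.2.2 t) = 0 ∧
    ¬ ∀ᶠ t' in 𝓝 t, FF c₀ p.1 (ln p.2.1 p.2.2 t') = 0} with hZ
  have hZc : ∀ p, (Z p).Countable := fun p => iso_countable (hlno p.1 p.2.1 p.2.2)
    (hlF c₀ p.1 p.2.1 p.2.2)
  have : ∀ p, Countable (Z p) := fun p => (hZc p).to_subtype
  obtain ⟨c₁, hc₁⟩ := exists_coef_c (T := T) (J := J ⊕ (Σ p : I × ℕ × ℕ, Z p))
    (Sum.elim x fun q k => F q.1.1 k (ln q.1.2.1 q.1.2.2 q.2.1)) (by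
      rintro (j | q)
      · exact hx j
      · exact hne _ _ q.2.2.1)
  -- step 3
  have hopen : ∀ p : I × ℕ × ℕ, IsOpen {t : ℂ | ln p.2.1 p.2.2 t ∈ O p.1 ∧
      FF c₁ p.1 (ln p.2.1 p.2.2 t) ≠ 0} := fun p =>
    (hlF c₁ p.1 p.2.1 p.2.2).continuousOn.isOpen_inter_preimage (hlno p.1 p.2.1 p.2.2)
      (isOpen_ne (x := (0 : ℂ)))
  set B : I × ℕ × ℕ → Set ℂ := fun p => {s : ℂ | ∃ t ∈ {t : ℂ | ln p.2.1 p.2.2 t ∈ O p.1 ∧
      FF c₁ p.1 (ln p.2.1 p.2.2 t) ≠ 0},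
      deriv (fun t => -(FF c₀ p.1 (ln p.2.1 p.2.2 t) / FF c₁ p.1 (ln p.2.1 p.2.2 t))) t = 0 ∧
      -(FF c₀ p.1 (ln p.2.1 p.2.2 t) / FF c₁ p.1 (ln p.2.1 p.2.2 t)) = s} with hB
  have hBc : ∀ p, (B p).Countable := fun p => crit_countable (hopen p) (by
    refine DifferentiableOn.neg (DifferentiableOn.div ?_ ?_ fun t ht => ht.2)
    · exact (hlF c₀ p.1 p.2.1 p.2.2).mono fun t ht => ht.1
    · exact (hlF c₁ p.1 p.2.1 p.2.2).mono fun t ht => ht.1)
  have hbad : ((⋃ p, B p) ∪ ⋃ j : J, {s : ℂ | ∑ k ∈ T, c₀ k * x j k +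
      s * ∑ k ∈ T, c₁ k * x j k = 0}).Countable := by
    refine (countable_iUnion hBc).union (countable_iUnion fun j => ?_)
    refine Set.Subsingleton.countable ?_
    intro s hs s' hs'
    have h1 : (s - s') * ∑ k ∈ T, c₁ k * x j k = 0 := by
      have h2 : ∑ k ∈ T, c₀ k * x j k + s * ∑ k ∈ T, c₁ k * x j k = 0 := hs
      have h3 : ∑ k ∈ T, c₀ k * x j k + s' * ∑ k ∈ T, c₁ k * x j k = 0 := hs'
      linear_combination h2 - h3
    have h2 : ∑ k ∈ T, c₁ k * x j k ≠ 0 := hc₁ (Sum.inl j)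
    exact sub_eq_zero.1 ((mul_eq_zero.1 h1).resolve_right h2)
  obtain ⟨s, hs⟩ : ∃ s : ℂ, s ∉ (⋃ p, B p) ∪ ⋃ j : J, {s : ℂ | ∑ k ∈ T, c₀ k * x j k +
      s * ∑ k ∈ T, c₁ k * x j k = 0} := by
    by_contra! h
    exact not_countable_complex (hbad.mono fun t _ => h t)
  have hsum : ∀ y : ℕ → ℂ, ∑ k ∈ T, (c₀ k + s * c₁ k) * y k =
      ∑ k ∈ T, c₀ k * y k + s * ∑ k ∈ T, c₁ k * y k := by
    intro y
    rw [Finset.mul_sum, ← Finset.sum_add_distrib]
    exact Finset.sum_congr rfl fun k _ => by ring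
  refine ⟨fun k => c₀ k + s * c₁ k, fun j h0 => ?_, ?_⟩
  · apply hs
    refine Or.inr (mem_iUnion.2 ⟨j, ?_⟩)
    show ∑ k ∈ T, c₀ k * x j k + s * ∑ k ∈ T, c₁ k * x j k = 0
    rw [← hsum]
    exact h0
  -- step 4
  intro i z hz e g he hg h0 hd hev
  have hev' : ∀ᶠ z' in 𝓝 z, FF c₀ i z' + s * FF c₁ i z' = e z' ^ 2 * g z' := by
    filter_upwards [hev] with z' hz'
    rw [← hz', hFF]
    exact (hsum _).symm
  by_cases hcase : ∀ᶠ z' in 𝓝 z, e z' = 0 → FF c₁ i z' = 0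
  · -- case B
    obtain ⟨j, r, hr, hW⟩ := line he h0 hd
      (((hO i).eventually_mem hz).and (hcase.and hev'))
    obtain ⟨W, hWs, hWo, hzW⟩ := _root_.mem_nhds_iff.1 hW
    obtain ⟨n, hn⟩ := ds_mem hWo ⟨z, hzW⟩
    obtain ⟨hN, t₀, ht₀, het₀⟩ := hWs hn
    have hN' : ∀ t ∈ ball (0 : ℂ) r, ln n j t ∈ O i ∧ (e (ln n j t) = 0 → FF c₁ i (ln n j t) = 0) ∧
        FF c₀ i (ln n j t) + s * FF c₁ i (ln n j t) = e (ln n j t) ^ 2 * g (ln n j t) :=
      fun t ht => hN t ht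
    have h1 : FF c₁ i (ln n j t₀) = 0 := (hN' t₀ ht₀).2.1 het₀
    have h2 : FF c₀ i (ln n j t₀) = 0 := by
      have h3 := (hN' t₀ ht₀).2.2
      have h4 : e (ln n j t₀) = 0 := het₀
      rw [h1, h4] at h3
      linear_combination h3
    have h3 : ¬ ∀ᶠ t' in 𝓝 t₀, FF c₀ i (ln n j t') = 0 := by
      intro h4
      have h5 : AnalyticOnNhd ℂ (fun t => FF c₀ i (ln n j t)) (ball (0 : ℂ) r) := by
        refine DifferentiableOn.analyticOnNhd ?_ isOpen_ball
        exact (hlF c₀ i n j).mono fun t ht => (hN' t ht).1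
      have h6 := h5.eqOn_zero_of_preconnected_of_eventuallyEq_zero
        (convex_ball (0 : ℂ) r).isPreconnected ht₀ h4 (mem_ball_self hr)
      have h7 : ln n j 0 = ds V n := by
        rw [hln]
        simp
      have h8 : FF c₀ i (ln n j 0) = 0 := h6
      have h9 := (hN' 0 (mem_ball_self hr)).1
      rw [h7] at h8 h9
      exact hc₀ ⟨(i, n), h9⟩ h8
    exact hc₁ (Sum.inr ⟨(i, n, j), ⟨t₀, (hN' t₀ ht₀).1, h2, h3⟩⟩) h1
  · -- case A
    have hfr : ∃ᶠ z' in 𝓝 z, e z' = 0 ∧ FF c₁ i z' ≠ 0 := by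
      intro h
      apply hcase
      filter_upwards [h] with z' hz' h1
      by_contra h2
      exact hz' ⟨h1, h2⟩
    have hd' : ∀ᶠ z' in 𝓝 z, fderiv ℂ e z' ≠ 0 :=
      he.fderiv.continuousAt.eventually_ne hd
    obtain ⟨z₁, ⟨h1, h2⟩, h3, h4, h5, h6, h7⟩ := (hfr.and_eventually
      (((hO i).eventually_mem hz).and (he.eventually_analyticAt.and (hg.eventually_analyticAt.and
        (hd'.and (eventually_eventually_nhds.2 hev')))))).exists
    have h8 : ∀ᶠ z' in 𝓝 z₁, z' ∈ O i ∧ FF c₁ i z' ≠ 0 ∧ AnalyticAt ℂ e z' ∧ AnalyticAt ℂ g z' ∧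
        ∀ᶠ z'' in 𝓝 z', FF c₀ i z'' + s * FF c₁ i z'' = e z'' ^ 2 * g z'' := by
      filter_upwards [(hO i).eventually_mem h3,
        ((hFd c₁ i).differentiableAt ((hO i).mem_nhds h3)).continuousAt.eventually_ne h2,
        h4.eventually_analyticAt, h5.eventually_analyticAt, eventually_eventually_nhds.2 h7] with
        z' a1 a2 a3 a4 a5
      exact ⟨a1, a2, a3, a4, a5⟩
    obtain ⟨j, r, hr, hW⟩ := line h4 h1 h6 h8
    obtain ⟨W, hWs, hWo, hzW⟩ := _root_.mem_nhds_iff.1 hW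
    obtain ⟨n, hn⟩ := ds_mem hWo ⟨z₁, hzW⟩
    obtain ⟨hN, t₀, ht₀, het₀⟩ := hWs hn
    obtain ⟨a1, a2, a3, a4, a5⟩ := hN t₀ ht₀
    have b1 : ln n j t₀ ∈ O i := a1
    have b2 : FF c₁ i (ln n j t₀) ≠ 0 := a2
    have b0 : e (ln n j t₀) = 0 := het₀
    have b5 : ∀ᶠ t in 𝓝 t₀, FF c₀ i (ln n j t) + s * FF c₁ i (ln n j t) =
        e (ln n j t) ^ 2 * g (ln n j t) := (hlnd n j t₀).continuousAt.eventually a5
    have b6 : ∀ᶠ t in 𝓝 t₀, FF c₁ i (ln n j t) ≠ 0 := by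
      have := ((hlF c₁ i n j).differentiableAt ((hlno i n j).mem_nhds b1)).continuousAt
      exact this.eventually_ne b2
    have b3 : DifferentiableAt ℂ (fun t => e (ln n j t)) t₀ :=
      DifferentiableAt.comp t₀ (g := e) a3.differentiableAt (hlnd n j t₀)
    have b4 : DifferentiableAt ℂ (fun t => g (ln n j t)) t₀ :=
      DifferentiableAt.comp t₀ (g := g) a4.differentiableAt (hlnd n j t₀)
    have b7 : DifferentiableAt ℂ (fun t => FF c₁ i (ln n j t)) t₀ :=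
      (hlF c₁ i n j).differentiableAt ((hlno i n j).mem_nhds b1)
    have b8 := b3.hasDerivAt.pow 2
    have b9 := (b4.div b7 b2).hasDerivAt
    have b10 := (b8.mul b9).const_sub s
    have hEq : (fun t => -(FF c₀ i (ln n j t) / FF c₁ i (ln n j t))) =ᶠ[𝓝 t₀]
        fun t => s - (e (ln n j t)) ^ 2 * (g (ln n j t) / FF c₁ i (ln n j t)) := by
      filter_upwards [b5, b6] with t h9 h10
      field_simp
      linear_combination -h9
    have hder : deriv (fun t => -(FF c₀ i (ln n j t) / FF c₁ i (ln n j t))) t₀ = 0 := by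
      rw [hEq.deriv_eq]
      have h11 := b10.deriv
      have h12 : deriv (fun t => s - (e (ln n j t)) ^ 2 * (g (ln n j t) / FF c₁ i (ln n j t))) t₀ =
          _ := h11
      rw [h12]
      simp [b0]
    have hval : -(FF c₀ i (ln n j t₀) / FF c₁ i (ln n j t₀)) = s := by
      have h13 := hEq.eq_of_nhds
      simp only [b0] at h13
      rw [h13]
      ring
    exact hs (Or.inl (mem_iUnion.2 ⟨(i, n, j), t₀, ⟨b1, b2⟩, hder, hval⟩))

end Line

end Vale.Agent.P281.H68.TM
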