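import Vale.Agent.P281.H68.TM.Th2
import Vale.Agent.P281.H68.TM.Bert

/-!
# T-M, block M2: the general member of the system of canonical forms has multiplicity at most one
-/

open scoped Manifold ContDiff Topology
open Set Filter Metric Module

namespace Vale.Agent.P281.H68.TM

open Vale.Agent.P281 Vale.Agent.P281.MF Vale.Agent.P281.ISO Vale.Agent.P281.ELL
open Vale.Agent.P281.H713

set_option linter.unusedSectionVars false

universe u

section Gen

variable {E' : Type} [NormedAddCommGroup E'] [NormedSpace ℂ E'] [FiniteDimensional ℂ E']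
variable {Y : Type u} [TopologicalSpace Y] [ChartedSpace E' Y] [IsManifold 𝓘(ℂ, E') ω Y]
variable {ι : Type u} {U : ι → Set Y}

/-- **the general member**: a general combination of sections of one line bundle without common zeros
on `⋃ U a` vanishes at most simply along every germ of smooth hypersurface -/
theorem general_member [SecondCountableTopology Y] {K : Finset ℕ} {A : ℕ → ι → Y → ℂ}
    (hU : ∀ a, IsOpen (U a)) (hhol : ∀ k ∈ K, ∀ a y, y ∈ U a → HolV E' (A k a) y)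
    (hch : ∀ a b y, y ∈ U a → y ∈ U b → ∃ l : ℂ, l ≠ 0 ∧ ∀ k ∈ K, A k b y = l * A k a y)
    (hne : ∀ a y, y ∈ U a → ∃ k ∈ K, A k a y ≠ 0)
    {J : Type*} [Countable J] (x : J → ℕ → ℂ) (hx : ∀ j, ∃ k ∈ K, x j k ≠ 0) :
    ∃ c : ℕ → ℂ, (∀ j, ∑ k ∈ K, c k * x j k ≠ 0) ∧
      ∀ a y, y ∈ U a → ∀ e g : Y → ℂ, HolV E' e y → HolV E' g y → e y = 0 → dV E' e y ≠ 0 →
        ¬ ∀ᶠ z in 𝓝 y, ∑ k ∈ K, c k * A k a z = e z ^ 2 * g z := by
  classical
  haveI : CompleteSpace E' := FiniteDimensional.complete ℂ E'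
  haveI : ProperSpace E' := FiniteDimensional.proper ℂ E'
  haveI : SecondCountableTopology E' := inferInstance
  obtain ⟨T, hTc, hT⟩ := TopologicalSpace.isOpen_iUnion_countable
    (fun p : Y × ι => (chartAt E' p.1).source ∩ U p.2)
    (fun p => (chartAt E' p.1).open_source.inter (hU p.2))
  haveI : Countable T := hTc.to_subtype
  have hmem : ∀ (p : Y × ι) (w : E'), w ∈ (chartAt E' p.1).target ∩
      (chartAt E' p.1).symm ⁻¹' (U p.2) → (chartAt E' p.1).symm w ∈ (chartAt E' p.1).source ∧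
      chartAt E' p.1 ((chartAt E' p.1).symm w) = w := fun p w hw =>
    ⟨(chartAt E' p.1).map_target hw.1, (chartAt E' p.1).right_inv hw.1⟩
  obtain ⟨c, hc, hb⟩ := bertini (V := E') (I := T) (T := K)
    (fun p => (chartAt E' p.1.1).target ∩ (chartAt E' p.1.1).symm ⁻¹' (U p.1.2))
    (fun p => (chartAt E' p.1.1).isOpen_inter_preimage_symm (hU p.1.2))
    (fun p k w => A k p.1.2 ((chartAt E' p.1.1).symm w))
    (fun p k hk w hw => by
      obtain ⟨h1, h2⟩ := hmem p.1 w hw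
      have h3 := (hhol k hk p.1.2 _ hw.2).rep h1
      rw [h2] at h3
      exact (h3.differentiableAt (by simp)).differentiableWithinAt)
    (fun p w hw => hne _ _ hw.2) x hx
  refine ⟨c, hc, fun a y hy e g he hg h0 hd hev => ?_⟩
  obtain ⟨p, hp⟩ : ∃ p : T, y ∈ (chartAt E' p.1.1).source ∩ U p.1.2 := by
    have h1 : y ∈ ⋃ p : Y × ι, (chartAt E' p.1).source ∩ U p.2 :=
      mem_iUnion.2 ⟨(y, a), mem_chart_source E' y, hy⟩
    rw [← hT] at h1
    obtain ⟨p, hp, h2⟩ := mem_iUnion₂.1 h1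
    exact ⟨⟨p, hp⟩, h2⟩
  obtain ⟨k₀, hk₀, hk⟩ := hne a y hy
  set χ := chartAt E' p.1.1 with hχ
  set b := p.1.2 with hbdef
  have hyt : χ y ∈ χ.target := χ.map_source hp.1
  have hsy : χ.symm (χ y) = y := χ.left_inv hp.1
  set g' : Y → ℂ := fun z => g z * (A k₀ b z / A k₀ a z) with hg'
  have hg'h : HolV E' g' y := hg.mul ((hhol k₀ hk₀ b y hp.2).div (hhol k₀ hk₀ a y hy) hk)
  have hev' : ∀ᶠ z in 𝓝 y, ∑ k ∈ K, c k * A k b z = e z ^ 2 * g' z := by
    filter_upwards [hev, (hU a).eventually_mem hy, (hU b).eventually_mem hp.2,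
      (hhol k₀ hk₀ a y hy).continuousAt.eventually_ne hk] with z h1 h2 h3 h4
    obtain ⟨l, hl, h5⟩ := hch a b z h2 h3
    have h6 : A k₀ b z / A k₀ a z = l := by
      rw [h5 k₀ hk₀, mul_div_cancel_right₀ _ h4]
    rw [hg']
    simp only
    rw [h6, ← mul_assoc, ← h1, Finset.sum_mul]
    refine Finset.sum_congr rfl fun k hkK => ?_
    rw [h5 k hkK]
    ring
  refine hb p (χ y) ⟨hyt, by
    show χ.symm (χ y) ∈ U b
    rw [hsy]
    exact hp.2⟩ (e ∘ χ.symm) (g' ∘ χ.symm) (he.rep hp.1).analyticAt (hg'h.rep hp.1).analyticAt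
    (by simp only [Function.comp_apply, hsy, h0]) ?_ ?_
  · intro h1
    apply hd
    rw [dV_eq_chart hp.1 he, h1, ContinuousLinearMap.zero_comp]
  · have h1 : Tendsto χ.symm (𝓝 (χ y)) (𝓝 y) := by
      have h2 := (χ.continuousAt_symm hyt).tendsto
      rwa [hsy] at h2
    exact h1.eventually hev'

end Gen

section Fam

variable {E E' : Type} [NormedAddCommGroup E] [NormedSpace ℂ E] [FiniteDimensional ℂ E]
  [NormedAddCommGroup E'] [NormedSpace ℂ E'] [FiniteDimensional ℂ E']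
variable {X Y : Type u} [TopologicalSpace X] [ChartedSpace E X] [IsManifold 𝓘(ℂ, E) ω X]
  [TopologicalSpace Y] [ChartedSpace E' Y] [IsManifold 𝓘(ℂ, E') ω Y]
variable {n : ℕ} {Q : (Fin n → ℝ) → (Fin n → ℝ) → ℝ}
variable {f : X → Y} {S : Set Y} {ι : Type u} {U : ι → Set Y}
  {π : ι → Y → ((Fin n → ℝ) ≃L[ℝ] ℂ)} {u : ι → Y → ℂ → X}

end Fam

end Vale.Agent.P281.H68.TM
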