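import Vale.Agent.P281.H740.TM.Spec
import Vale.Agent.P281.H68.TM.Th3
import Vale.Agent.P281.MF.SecExt

/-!
# T-M, block T6 (helper68): sums of relative forms, their coefficients, the general member on `X`
-/

open scoped Manifold ContDiff Topology
open Set Filter Metric Module

namespace Vale.Agent.P281.H68.TM

open Vale.Agent.P281 Vale.Agent.P281.MF Vale.Agent.P281.ISO Vale.Agent.P281.ELL
open Vale.Agent.P281.H713 Vale.Agent.P281.H713.TZ.S Vale.Agent.P281.H740.TM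

set_option linter.unusedSectionVars false

universe u

section Sum

variable {E E' E₀ : Type} [NormedAddCommGroup E] [NormedSpace ℂ E] [FiniteDimensional ℂ E]
  [NormedAddCommGroup E'] [NormedSpace ℂ E'] [FiniteDimensional ℂ E']
  [NormedAddCommGroup E₀] [NormedSpace ℂ E₀] [FiniteDimensional ℂ E₀]
variable {X Y : Type u} [TopologicalSpace X] [ChartedSpace E X] [IsManifold 𝓘(ℂ, E) ω X]
  [TopologicalSpace Y] [ChartedSpace E' Y] [IsManifold 𝓘(ℂ, E') ω Y]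
variable {f : X → Y} {S : Set Y} {e₀ : E ≃L[ℂ] (E' × E₀)} {𝒜 : Set (Set X)}

theorem relForm_add {N : ℕ} {κ : Set X → ℕ} {Θ Θ' : X → ℂ}
    (h : RelForm f S e₀ N 𝒜 κ Θ) (h' : RelForm f S e₀ N 𝒜 κ Θ') :
    RelForm f S e₀ N 𝒜 κ (fun x => Θ x + Θ' x) where
  hol := by
    intro x₀ x y₀ hx hx₀ hy₀ T e hT he
    obtain ⟨H, hH, hHe⟩ := h.hol x₀ x y₀ hx hx₀ hy₀ T e hT he
    obtain ⟨H', hH', hHe'⟩ := h'.hol x₀ x y₀ hx hx₀ hy₀ T e hT he
    refine ⟨fun z => H z + H' z, hH.add hH', ?_⟩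
    filter_upwards [hHe, hHe'] with z hz hz' hzA hz0
    have h1 := hz hzA hz0
    have h2 := hz' hzA hz0
    linear_combination h1 + h2
  bound := by
    intro r hr
    obtain ⟨C, hC⟩ := h.bound r hr
    obtain ⟨C', hC'⟩ := h'.bound r hr
    refine ⟨C + C', fun v₀ Q h1 h2 h3 h4 h5 P h6 => ?_⟩
    have h7 := hC v₀ Q h1 h2 h3 h4 h5 P h6
    have h8 := hC' v₀ Q h1 h2 h3 h4 h5 P h6
    have h9 := norm_add_le (Θ (Q v₀)) (Θ' (Q v₀))
    show ‖Θ (Q v₀) + Θ' (Q v₀)‖ ≤ _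
    rw [add_mul]
    linarith

theorem relForm_smul {N : ℕ} {κ : Set X → ℕ} {Θ : X → ℂ} (h : RelForm f S e₀ N 𝒜 κ Θ) (c : ℂ) :
    RelForm f S e₀ N 𝒜 κ (fun x => c * Θ x) where
  hol := by
    intro x₀ x y₀ hx hx₀ hy₀ T e hT he
    obtain ⟨H, hH, hHe⟩ := h.hol x₀ x y₀ hx hx₀ hy₀ T e hT he
    refine ⟨fun z => c * H z, (HolV.const c x).mul hH, ?_⟩
    filter_upwards [hHe] with z hz hzA hz0
    have h1 := hz hzA hz0
    linear_combination c * h1
  bound := by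
    intro r hr
    obtain ⟨C, hC⟩ := h.bound r hr
    refine ⟨‖c‖ * C, fun v₀ Q h1 h2 h3 h4 h5 P h6 => ?_⟩
    have h7 := hC v₀ Q h1 h2 h3 h4 h5 P h6
    show ‖c * Θ (Q v₀)‖ ≤ _
    rw [norm_mul, mul_assoc]
    exact mul_le_mul_of_nonneg_left h7 (norm_nonneg _)

theorem relForm_zero {N : ℕ} {κ : Set X → ℕ} :
    RelForm f S e₀ N 𝒜 κ (fun _ => 0) where
  hol := by
    intro x₀ x y₀ hx hx₀ hy₀ T e hT he
    exact ⟨fun z => 0, HolV.const (0 : ℂ) x, Filter.Eventually.of_forall fun z _ _ => by simp⟩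
  bound := by
    intro r hr
    exact ⟨0, fun v₀ Q h1 h2 h3 h4 h5 P h6 => by simp⟩

theorem relForm_sum {N : ℕ} {κ : Set X → ℕ} {I : Type*} (T : Finset I) {Θ : I → X → ℂ}
    (h : ∀ i ∈ T, RelForm f S e₀ N 𝒜 κ (Θ i)) :
    RelForm f S e₀ N 𝒜 κ (fun x => ∑ i ∈ T, Θ i x) := by
  classical
  induction T using Finset.induction_on with
  | empty => exact relForm_zero.congr rfl (fun _ => rfl) (fun x => by simp)
  | insert i T hi ih =>
    exact (relForm_add (h i (Finset.mem_insert_self _ _))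
      (ih fun j hj => h j (Finset.mem_insert_of_mem hj))).congr rfl (fun _ => rfl)
      (fun x => by rw [Finset.sum_insert hi])

end Sum

/-- two functions continuous at `z` which are equal on a set accumulating at `z` -/
theorem eq_of_fr {X : Type*} [TopologicalSpace X] {f g : X → ℂ} {z : X}
    (hf : ContinuousAt f z) (hg : ContinuousAt g z) (h : ∃ᶠ t in 𝓝 z, f t = g t) : f z = g z := by
  by_contra hcon
  have h5 : ContinuousAt (fun y => f y - g y) z := hf.sub hg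
  refine h ?_
  filter_upwards [h5.eventually_ne (sub_ne_zero.2 hcon)] with y hy
  exact sub_ne_zero.1 hy

/-- the quotient of two Jacobians is continuous -/
theorem jac_ratio {E : Type} [NormedAddCommGroup E] [NormedSpace ℂ E]
    [FiniteDimensional ℂ E] {X : Type u}
    [TopologicalSpace X] [ChartedSpace E X] [IsManifold 𝓘(ℂ, E) ω X] {a b z : X}
    (ha : z ∈ (chartAt E a).source) (hb : z ∈ (chartAt E b).source) :
    ContinuousAt (fun w => jac E (chartAt E a : X → E) w / jac E (chartAt E b : X → E) w) z := by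
  have hz := mem_chart_source E z
  have h1 : ∀ᶠ w in 𝓝 z, w ∈ (chartAt E a).source ∧ w ∈ (chartAt E b).source ∧
      w ∈ (chartAt E z).source :=
    ((chartAt E a).open_source.eventually_mem ha).and
      (((chartAt E b).open_source.eventually_mem hb).and
        ((chartAt E z).open_source.eventually_mem hz))
  have hne : (fderiv ℂ ((chartAt E b : X → E) ∘ (chartAt E z).symm) (chartAt E z z)).det ≠ 0 := by
    have h2 := jac_chart_comp (E := E) (x₀ := b) (x := z) (w := z) hb hz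
    intro h0
    rw [h0, zero_mul] at h2
    exact jac_chart_ne_zero hb h2
  refine ((continuousAt_jac_ratio ha).div (continuousAt_jac_ratio hb) hne).congr ?_
  filter_upwards [h1] with w hw
  rw [jac_chart_comp hw.1 hw.2.2, jac_chart_comp hw.2.1 hw.2.2,
    mul_div_mul_right _ _ (jac_chart_ne_zero hw.2.2)]
  rfl

section Coef

variable {p : ℕ} {X Z : Type} [TopologicalSpace X] [ChartedSpace (Cm (p + 1)) X]
  [IsManifold 𝓘(ℂ, Cm (p + 1)) ω X] [TopologicalSpace Z] [ChartedSpace (Cm p) Z]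
  [IsManifold 𝓘(ℂ, Cm p) ω Z] {g : X → Z} {S : Set Z}

/-- the combination of weight `W` -/
def cmb (K : Finset ℕ) (W : ℕ) (c : ℕ → ℂ) {X : Type*} (Θ : ℕ → X → ℂ) (x : X) : ℂ :=
  ∑ k ∈ K, c k * Θ k x ^ (W / k)

theorem rf_cmb {e₀ : Cm (p + 1) ≃L[ℂ] (Cm p × ℂ)} {K : Finset ℕ} {W : ℕ}
    (hW : ∀ k ∈ K, k ∣ W) {Θ : ℕ → X → ℂ} (hΘ : ∀ k ∈ K, RF g S e₀ k (Θ k)) (c : ℕ → ℂ) :
    RF g S e₀ W (cmb K W c Θ) := by
  refine relForm_sum K fun k hk => ?_
  exact relForm_smul (((hΘ k hk).pow (W / k)).congr (Nat.mul_div_cancel' (hW k hk))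
    (fun _ => by simp) (fun _ => rfl)) (c k)

theorem isCoef_cmb {K : Finset ℕ} {W : ℕ}
    (hW : ∀ k ∈ K, k ∣ W) {Θ : ℕ → X → ℂ} {x : X} {H : ℕ → X → ℂ}
    (hH : ∀ k ∈ K, IsCoef p g S k (Θ k) x (H k)) (c : ℕ → ℂ) :
    IsCoef p g S W (cmb K W c Θ) x (cmb K W c H) := by
  refine ⟨?_, ?_⟩
  · have h1 : HolV (Cm (p + 1)) (fun z => ∑ k ∈ K, c k * H k z ^ (W / k)) x :=
      HolV.sum fun k hk => (HolV.const (c k) x).mul
        ((show HolV (Cm (p + 1)) (H k) x from (hH k hk).1).pow _)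
    exact h1
  · filter_upwards [(Finset.eventually_all K).2 fun k hk => (hH k hk).2] with z hz hgz
    unfold cmb
    rw [Finset.mul_sum, Finset.sum_mul]
    refine Finset.sum_congr rfl fun k hk => ?_
    have h1 := hz k hk hgz
    have h2 : jac (Cm p) (chartAt (Cm p) (g x)) (g z) ^ W =
        (jac (Cm p) (chartAt (Cm p) (g x)) (g z) ^ k) ^ (W / k) := by
      rw [← pow_mul, Nat.mul_div_cancel' (hW k hk)]
    have h3 : jac (Cm (p + 1)) (chartAt (Cm (p + 1)) x) z ^ W =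
        (jac (Cm (p + 1)) (chartAt (Cm (p + 1)) x) z ^ k) ^ (W / k) := by
      rw [← pow_mul, Nat.mul_div_cancel' (hW k hk)]
    rw [h2, h3]
    calc (jac (Cm p) (chartAt (Cm p) (g x)) (g z) ^ k) ^ (W / k) * (c k * Θ k z ^ (W / k))
        = c k * (jac (Cm p) (chartAt (Cm p) (g x)) (g z) ^ k * Θ k z) ^ (W / k) := by
          rw [mul_pow]; ring
      _ = c k * (H k z * jac (Cm (p + 1)) (chartAt (Cm (p + 1)) x) z ^ k) ^ (W / k) := by rw [h1]
      _ = _ := by rw [mul_pow]; ring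

/-- the frame at `a` -/
def Fr (g : X → Z) (S : Set Z) (K : Finset ℕ) (Θ : ℕ → X → ℂ) (a : X) (H : ℕ → X → ℂ) : Set X :=
  interior {z | (z ∈ (chartAt (Cm (p + 1)) a).source ∧ g z ∈ (chartAt (Cm p) (g a)).source) ∧
    ∀ k ∈ K, HolV (Cm (p + 1)) (H k) z ∧ (g z ∉ S →
      jac (Cm p) (chartAt (Cm p) (g a)) (g z) ^ k * Θ k z =
        H k z * jac (Cm (p + 1)) (chartAt (Cm (p + 1)) a) z ^ k)}

theorem mem_Fr (hg : Continuous g) {K : Finset ℕ} {Θ : ℕ → X → ℂ} {a : X} {H : ℕ → X → ℂ}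
    (hH : ∀ k ∈ K, IsCoef p g S k (Θ k) a (H k)) : a ∈ Fr (p := p) g S K Θ a H := by
  refine mem_interior_iff_mem_nhds.2 ?_
  have h1 : ∀ᶠ z in 𝓝 a, z ∈ (chartAt (Cm (p + 1)) a).source :=
    (chartAt (Cm (p + 1)) a).open_source.eventually_mem (mem_chart_source _ a)
  have h2 : ∀ᶠ z in 𝓝 a, g z ∈ (chartAt (Cm p) (g a)).source :=
    hg.continuousAt.eventually ((chartAt (Cm p) (g a)).open_source.eventually_mem
      (mem_chart_source _ (g a)))
  filter_upwards [h1, h2, (Finset.eventually_all K).2 fun k hk => (hH k hk).2,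
    (Finset.eventually_all K).2 fun k hk =>
      (show HolV (Cm (p + 1)) (H k) a from (hH k hk).1).eventually] with z a1 a2 a3 a4
  exact ⟨⟨a1, a2⟩, fun k hk => ⟨a4 k hk, a3 k hk⟩⟩

/-- change of frame -/
theorem Fr.change (hg : Continuous g) (hd : Dense (g ⁻¹' S)ᶜ) {K : Finset ℕ} {Θ : ℕ → X → ℂ}
    {a b z : X} {H H' : ℕ → X → ℂ} (ha : z ∈ Fr (p := p) g S K Θ a H)
    (hb : z ∈ Fr (p := p) g S K Θ b H') :
    ∃ r : ℂ, r ≠ 0 ∧ ∀ k ∈ K, H' k z = r ^ k * H k z := by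
  obtain ⟨⟨a1, a2⟩, a3⟩ := interior_subset ha
  obtain ⟨⟨b1, b2⟩, b3⟩ := interior_subset hb
  set r : X → ℂ := fun w =>
    (jac (Cm p) (chartAt (Cm p) (g b)) (g w) / jac (Cm p) (chartAt (Cm p) (g a)) (g w)) *
    (jac (Cm (p + 1)) (chartAt (Cm (p + 1)) a) w / jac (Cm (p + 1)) (chartAt (Cm (p + 1)) b) w)
    with hr
  have hrc : ContinuousAt r z := by
    refine ContinuousAt.mul ?_ (jac_ratio a1 b1)
    exact ContinuousAt.comp (g := fun y => jac (Cm p) (chartAt (Cm p) (g b)) y /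
      jac (Cm p) (chartAt (Cm p) (g a)) y) (jac_ratio b2 a2) hg.continuousAt
  refine ⟨r z, ?_, fun k hk => ?_⟩
  · exact mul_ne_zero (div_ne_zero (jac_chart_ne_zero b2) (jac_chart_ne_zero a2))
      (div_ne_zero (jac_chart_ne_zero a1) (jac_chart_ne_zero b1))
  · refine eq_of_fr (f := H' k) (g := fun w => r w ^ k * H k w) (b3 k hk).1.continuousAt
      ((hrc.pow k).mul (a3 k hk).1.continuousAt) ?_
    have h1 : ∃ᶠ w in 𝓝 z, w ∈ (g ⁻¹' S)ᶜ := mem_closure_iff_frequently.1 (hd z)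
    refine (h1.and_eventually ((isOpen_interior.eventually_mem ha).and
      (isOpen_interior.eventually_mem hb))).mono ?_
    rintro w ⟨hw, hwa, hwb⟩
    obtain ⟨⟨c1, c2⟩, c3⟩ := interior_subset hwa
    obtain ⟨⟨d1, d2⟩, d3⟩ := interior_subset hwb
    have e1 := (c3 k hk).2 hw
    have e2 := (d3 k hk).2 hw
    have n1 : jac (Cm p) (chartAt (Cm p) (g a)) (g w) ≠ 0 := jac_chart_ne_zero c2
    have n2 : jac (Cm (p + 1)) (chartAt (Cm (p + 1)) b) w ≠ 0 := jac_chart_ne_zero d1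
    have e3 : H' k w * jac (Cm (p + 1)) (chartAt (Cm (p + 1)) b) w ^ k *
        jac (Cm p) (chartAt (Cm p) (g a)) (g w) ^ k =
        jac (Cm p) (chartAt (Cm p) (g b)) (g w) ^ k *
          (H k w * jac (Cm (p + 1)) (chartAt (Cm (p + 1)) a) w ^ k) := by
      rw [← e1, ← e2]
      ring
    show H' k w = r w ^ k * H k w
    rw [hr]
    simp only [mul_pow, div_pow]
    field_simp
    linear_combination e3

/-- two coefficients agree -/
theorem isCoef_unique (hd : Dense (g ⁻¹' S)ᶜ) {W : ℕ} {Θ : X → ℂ} {x : X}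
    {H H' : X → ℂ} (h : IsCoef p g S W Θ x H) (h' : IsCoef p g S W Θ x H') :
    H =ᶠ[𝓝 x] H' := by
  have h1 : ∀ᶠ z in 𝓝 x, z ∈ (chartAt (Cm (p + 1)) x).source :=
    (chartAt (Cm (p + 1)) x).open_source.eventually_mem (mem_chart_source _ x)
  filter_upwards [(show HolV (Cm (p + 1)) H x from h.1).eventually,
    (show HolV (Cm (p + 1)) H' x from h'.1).eventually,
    eventually_eventually_nhds.2 (h.2.and (h'.2.and h1))] with z a1 a2 a3
  refine eq_of_fr a1.continuousAt a2.continuousAt ?_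
  have h2 : ∃ᶠ w in 𝓝 z, w ∈ (g ⁻¹' S)ᶜ := mem_closure_iff_frequently.1 (hd z)
  refine (h2.and_eventually a3).mono ?_
  rintro w ⟨hw, b1, b2, b3⟩
  have b4 := (b1 hw).symm.trans (b2 hw)
  exact mul_right_cancel₀ (pow_ne_zero _ (jac_chart_ne_zero b3)) b4

/-- **the general member on `X`** -/
theorem gen [SecondCountableTopology X] (hg : Continuous g) (hd : Dense (g ⁻¹' S)ᶜ)
    {K : Finset ℕ} {W : ℕ} (hW : ∀ k ∈ K, k ∣ W) {Θ : ℕ → X → ℂ}
    (H : X → ℕ → X → ℂ) (hH : ∀ a, ∀ k ∈ K, IsCoef p g S k (Θ k) a (H a k))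
    {J : Type*} [Countable J] (x : J → ℕ → ℂ) (hx : ∀ j, ∃ k ∈ K, x j k ≠ 0) :
    ∃ c : ℕ → ℂ, (∀ j, ∑ k ∈ K, c k * x j k ≠ 0) ∧
      ∀ a, (∃ k ∈ K, H a k a ≠ 0) → ∀ e v : X → ℂ, HolV (Cm (p + 1)) e a →
        HolV (Cm (p + 1)) v a → e a = 0 → dV (Cm (p + 1)) e a ≠ 0 →
        ¬ ∀ᶠ z in 𝓝 a, cmb K W c (H a) z = e z ^ 2 * v z := by
  classical
  have hopen : ∀ a, IsOpen (Fr (p := p) g S K Θ a (H a)) := fun a => isOpen_interior
  have hcont : ∀ a, ∀ k ∈ K, ContinuousOn (H a k) (Fr (p := p) g S K Θ a (H a)) :=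
    fun a k hk z hz => ((interior_subset hz).2 k hk).1.continuousAt.continuousWithinAt
  obtain ⟨c, hc, h1⟩ := general_member (E' := Cm (p + 1)) (Y := X) (ι := X) (K := K)
    (U := fun a => ⋃ k ∈ K, Fr (p := p) g S K Θ a (H a) ∩ H a k ⁻¹' {0}ᶜ)
    (A := fun k a z => H a k z ^ (W / k))
    (fun a => isOpen_biUnion fun k hk => (hcont a k hk).isOpen_inter_preimage (hopen a)
      isOpen_compl_singleton)
    (fun k hk a y hy => by
      obtain ⟨k', -, hy', -⟩ := mem_iUnion₂.1 hy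
      exact ((interior_subset hy').2 k hk).1.pow _)
    (fun a b y hya hyb => by
      obtain ⟨k', -, hya', -⟩ := mem_iUnion₂.1 hya
      obtain ⟨k'', -, hyb', -⟩ := mem_iUnion₂.1 hyb
      obtain ⟨r, hr, h2⟩ := Fr.change hg hd hya' hyb'
      refine ⟨r ^ W, pow_ne_zero _ hr, fun k hk => ?_⟩
      rw [h2 k hk, mul_pow, ← pow_mul, Nat.mul_div_cancel' (hW k hk)])
    (fun a y hy => by
      obtain ⟨k, hk, -, hy'⟩ := mem_iUnion₂.1 hy
      exact ⟨k, hk, pow_ne_zero _ hy'⟩) x hx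
  refine ⟨c, hc, fun a ha e v he hv he0 hde hev => ?_⟩
  obtain ⟨k, hk, hk0⟩ := ha
  exact h1 a a (mem_iUnion₂.2 ⟨k, hk, mem_Fr hg (hH a), hk0⟩) e v he hv he0 hde hev

/-- the common zeros -/
def Pz (K : Finset ℕ) {X : Type*} (H : X → ℕ → X → ℂ) : Set X := {x | ∀ k ∈ K, H x k x = 0}

theorem pz_analytic (hg : Continuous g) (hd : Dense (g ⁻¹' S)ᶜ) {K : Finset ℕ} {Θ : ℕ → X → ℂ}
    (H : X → ℕ → X → ℂ) (hH : ∀ a, ∀ k ∈ K, IsCoef p g S k (Θ k) a (H a k)) :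
    H64.Gen.IsAnalyticSet (Cm (p + 1)) (Pz K H) := by
  intro a
  refine ⟨Fr (p := p) g S K Θ a (H a), {k // k ∈ K}, fun k => H a k.1, isOpen_interior,
    mem_Fr hg (hH a), fun k z hz => ((interior_subset hz).2 k.1 k.2).1, fun z hz => ?_⟩
  obtain ⟨r, hr, h1⟩ := Fr.change hg hd hz (mem_Fr hg (hH z))
  constructor
  · rintro h2 ⟨k, hk⟩
    have h3 := h2 k hk
    rw [h1 k hk] at h3
    exact (mul_eq_zero.1 h3).resolve_left (pow_ne_zero _ hr)
  · intro h2 k hk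
    have h3 : H a k z = 0 := h2 ⟨k, hk⟩
    rw [h1 k hk, h3, mul_zero]

end Coef

end Vale.Agent.P281.H68.TM
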