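import Vale.Agent.P281.H68.TM.Rf
import Vale.Agent.P281.H969.Gen.Fin
import Vale.Agent.P281.H511.Gen.Prime
import Vale.Agent.P281.H64.Gen.Core

/-!
# P281, project T-M (helper68): block T6, the general combination
-/

open scoped Manifold ContDiff Topology
open Set Filter Metric Module

namespace Vale.Agent.P281.H68.TM

open Vale.Agent.P281 Vale.Agent.P281.H713 Vale.Agent.P281.H713.TZ.S Vale.Agent.P281.H740.TM
open Vale.Agent.P281.H64.Gen (IsSmallSet IsAnalyticSet)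

set_option linter.unusedSectionVars false

theorem closure_union {X : Type*} [TopologicalSpace X] {E A B : Set X} (hA : IsClosed A)
    (h1 : E ⊆ closure (E \ A)) (h2 : E ⊆ closure (E \ B)) : E ⊆ closure (E \ (A ∪ B)) := by
  intro x hx
  rw [_root_.mem_closure_iff]
  intro N hN hxN
  obtain ⟨y, hyN, hyE, hyA⟩ := _root_.mem_closure_iff.1 (h1 hx) N hN hxN
  obtain ⟨z, ⟨hzN, hzA⟩, hzE, hzB⟩ := _root_.mem_closure_iff.1 (h2 hyE) (N ∩ Aᶜ)
    (hN.inter hA.isOpen_compl) ⟨hyN, hyA⟩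
  exact ⟨z, hzN, hzE, fun h => h.elim hzA hzB⟩

theorem closure_biUnion {X : Type*} [TopologicalSpace X] {E : Set X} (T : Finset ℕ)
    {A : ℕ → Set X} (hA : ∀ k ∈ T, IsClosed (A k)) (h : ∀ k ∈ T, E ⊆ closure (E \ A k)) :
    E ⊆ closure (E \ ⋃ k ∈ T, A k) := by
  classical
  induction T using Finset.induction_on with
  | empty => simpa using subset_closure
  | insert k T hk ih =>
    rw [Finset.set_biUnion_insert]
    exact closure_union (hA k (Finset.mem_insert_self _ _)) (h k (Finset.mem_insert_self _ _))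
      (ih (fun i hi => hA i (Finset.mem_insert_of_mem hi))
        fun i hi => h i (Finset.mem_insert_of_mem hi))

section
variable {p : ℕ} {X Z : Type} [TopologicalSpace X] [ChartedSpace (Cm (p + 1)) X]
  [IsManifold 𝓘(ℂ, Cm (p + 1)) ω X] [TopologicalSpace Z] [ChartedSpace (Cm p) Z]
  [IsManifold 𝓘(ℂ, Cm p) ω Z] {g : X → Z} {S : Set Z}

/-- the coefficient of a form which is zero off `g⁻¹(S)` -/
theorem isCoef_zero {k : ℕ} {Θ : X → ℂ} (h : ∀ x, g x ∉ S → Θ x = 0) (x : X) :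
    IsCoef p g S k Θ x (fun _ => 0) := by
  refine ⟨?_, Eventually.of_forall fun z hz => by rw [h z hz]; ring⟩
  exact (HolV.const (0 : ℂ) x : HolV (Cm (p + 1)) (fun _ => (0 : ℂ)) x)

/-- a form with a good point is not zero -/
theorem ne_of_good (hd : Dense (g ⁻¹' S)ᶜ) {w : ℕ} {Θ : X → ℂ} {E : Set X} {D : Set Z}
    {k o : ℕ} {x : X} (hG : GoodAt p g S w Θ E D k o x) : ∃ x, g x ∉ S ∧ Θ x ≠ 0 := by
  by_contra! hcon
  obtain ⟨hxE, e, d, u, H, v, he, hde, -, -, -, -, -, hH, hv, hv0, hHe, -⟩ := hG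
  have h1 := isCoef_unique hd hH (isCoef_zero (k := w) hcon x)
  have h2 : ∀ᶠ z in 𝓝 x, e z = 0 := by
    filter_upwards [h1, hHe, (show HolV (Cm (p + 1)) v x from hv).continuousAt.eventually_ne hv0]
      with z a1 a2 a3
    have a4 : e z ^ o * v z = 0 := by rw [← a2]; exact a1
    exact (pow_eq_zero_iff (Nat.succ_ne_zero o)).1 (by
      rw [Nat.succ_eq_add_one, pow_succ, (mul_eq_zero.1 a4).resolve_right a3, zero_mul])
  apply hde
  have h3 : dV (Cm (p + 1)) e x = dV (Cm (p + 1)) (fun _ : X => (0 : ℂ)) x := by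
    unfold dV
    exact Filter.EventuallyEq.mfderiv_eq h2
  have h4 : dV (Cm (p + 1)) (fun _ : X => (0 : ℂ)) x = 0 := by
    unfold dV
    exact mfderiv_const
  exact h3.trans h4

/-- **minimal order** -/
theorem min_order (hO : OrdStmt) {Δ : Set X → ℝ} {e₀ : Cm (p + 1) ≃L[ℂ] (Cm p × ℂ)}
    (hfib : H511.Surf.IsFibration (Cm (p + 1)) (Cm p) g Δ) (hS : IsSmallSet (Cm p) S)
    (hpr : H64.IsProperFibration (n := p + 1) (p := p) g S) (hd : Dense (g ⁻¹' S)ᶜ)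
    {K : Finset ℕ} {Θ : ℕ → X → ℂ} (hΘ : ∀ k ∈ K, 0 < k ∧ RF g S e₀ k (Θ k))
    (hne : ∃ k ∈ K, ∃ x, g x ∉ S ∧ Θ k x ≠ 0) {W : ℕ} (hW0 : 0 < W) (hW : ∀ k ∈ K, k ∣ W)
    {E : Set X} {D : Set Z} (hE : J.IsPrime (Cm (p + 1)) E) (hD : J.IsPrime (Cm p) D)
    (hED : closure (g '' E) = D) :
    ∃ y : ℕ → ℂ, (∃ k ∈ K, y k ≠ 0) ∧ ∀ c : ℕ → ℂ, ∑ k ∈ K, c k * y k ≠ 0 →
      ∃ kE m x, GoodAt p g S W (cmb K W c Θ) E D kE m x ∧
        ∀ k ∈ K, ∀ k' o' x', GoodAt p g S k (Θ k) E D k' o' x' → k' = kE ∧ m ≤ W / k * o' := by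
  classical
  set K₁ : Finset ℕ := K.filter fun k => ∃ x, g x ∉ S ∧ Θ k x ≠ 0 with hK₁
  have hK : ∀ k ∈ K₁, k ∈ K := fun k hk => (Finset.mem_filter.1 hk).1
  have h1 : ∀ k, k ∈ K₁ → ∃ kk oo : ℕ, 0 < kk ∧ k * (kk - 1) ≤ oo ∧
      IsAnalyticSet (Cm (p + 1)) {x | x ∈ E ∧ ¬ GoodAt p g S k (Θ k) E D kk oo x} ∧
      E ⊆ closure {x | GoodAt p g S k (Θ k) E D kk oo x} ∧
      ∀ k' o' x, GoodAt p g S k (Θ k) E D k' o' x → k' = kk ∧ o' = oo := fun k hk =>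
    hO p X Z g Δ S e₀ k (Θ k) ⟨hfib, hS, hpr, (hΘ k (hK k hk)).1, (hΘ k (hK k hk)).2,
      (Finset.mem_filter.1 hk).2⟩ E D hE hD hED
  choose! kk oo hkk hkk' hA hcl huniq using h1
  -- a point which is good for all `k`
  obtain ⟨x₀, hx₀E, hx₀⟩ : ∃ x₀ ∈ E, ∀ k ∈ K₁, GoodAt p g S k (Θ k) E D (kk k) (oo k) x₀ := by
    have h2 : E ⊆ closure (E \ ⋃ k ∈ K₁, {x | x ∈ E ∧ ¬ GoodAt p g S k (Θ k) E D (kk k) (oo k) x}) :=
      closure_biUnion K₁ (fun k hk => H511.Gen.isAnalyticSet_isClosed (hA k hk)) fun k hk =>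
        (hcl k hk).trans (closure_mono fun x hx => ⟨hx.1, fun h => h.2 hx⟩)
    obtain ⟨y, hyE, -⟩ := hE.2.2.nonempty
    obtain ⟨x₀, hx₀⟩ := closure_nonempty_iff.1 ⟨y, h2 hyE⟩
    refine ⟨x₀, hx₀.1, fun k hk => ?_⟩
    by_contra hcon
    exact hx₀.2 (mem_iUnion₂.2 ⟨k, hk, hx₀.1, hcon⟩)
  obtain ⟨k₀, hk₀K, hk₀'⟩ := hne
  have hk₀ : k₀ ∈ K₁ := Finset.mem_filter.2 ⟨hk₀K, hk₀'⟩
  obtain ⟨-, e, d, u, H₀, v₀, he, hde, hdl, hdd, hu, hu0, hdg, -, -, -, -, hsub⟩ := hx₀ k₀ hk₀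
  have hex : e x₀ = 0 := (H511.Gen.isLocalEq_mem_iff he).self_of_nhds.1 hx₀E
  -- the coefficients with the same equation
  have h3 : ∀ k, k ∈ K₁ → ∃ H v : X → ℂ, IsCoef p g S k (Θ k) x₀ H ∧ HolV (Cm (p + 1)) v x₀ ∧
      v x₀ ≠ 0 ∧ ∀ᶠ z in 𝓝 x₀, H z = e z ^ oo k * v z := by
    intro k hk
    obtain ⟨-, e', -, -, H, v, he', -, -, -, -, -, -, hH, hv, hv0, hHe, -⟩ := hx₀ k hk
    obtain ⟨w, hw, hw0, hwe⟩ := H511.Gen.exists_unit (H511.Gen.isLocalEq_holAt he) hex hde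
      (H511.Gen.isLocalEq_mem_iff he) he'
    refine ⟨H, fun z => w z ^ oo k * v z, hH,
      ((show HolV (Cm (p + 1)) w x₀ from hw).pow _).mul (show HolV (Cm (p + 1)) v x₀ from hv),
      mul_ne_zero (pow_ne_zero _ hw0) hv0, ?_⟩
    filter_upwards [hHe, hwe] with z a1 a2
    rw [a1, a2]
    ring
  choose! H v hH hv hv0 hHe using h3
  obtain ⟨k₁, hk₁, hmin⟩ := Finset.exists_min_image K₁ (fun k => W / k * oo k) ⟨k₀, hk₀⟩
  set m : ℕ := W / k₁ * oo k₁ with hm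
  set y : ℕ → ℂ := fun k => if k ∈ K₁ ∧ W / k * oo k = m then v k x₀ ^ (W / k) else 0 with hy
  refine ⟨y, ⟨k₁, hK k₁ hk₁, ?_⟩, fun c hc => ?_⟩
  · rw [hy]
    simp only
    rw [if_pos ⟨hk₁, hm.symm⟩]
    exact pow_ne_zero _ (hv0 k₁ hk₁)
  set HH : ℕ → X → ℂ := fun k => if k ∈ K₁ then H k else fun _ => 0 with hHH
  have hHHc : ∀ k ∈ K, IsCoef p g S k (Θ k) x₀ (HH k) := by
    intro k hk
    rw [hHH]
    by_cases hk1 : k ∈ K₁
    · simp only
      rw [if_pos hk1]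
      exact hH k hk1
    · simp only
      rw [if_neg hk1]
      refine isCoef_zero (fun x hx => ?_) x₀
      by_contra hcon
      exact hk1 (Finset.mem_filter.2 ⟨hk, x, hx, hcon⟩)
  have hcoef := isCoef_cmb hW hHHc c
  set V : X → ℂ := fun z => ∑ k ∈ K₁, c k * (e z ^ (W / k * oo k - m) * v k z ^ (W / k)) with hV
  have hVh : HolV (Cm (p + 1)) V x₀ := HolV.sum fun k hk => (HolV.const (c k) x₀).mul
    (((show HolV (Cm (p + 1)) e x₀ from H511.Gen.isLocalEq_holAt he).pow _).mul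
      ((hv k hk).pow _))
  have hVx : V x₀ ≠ 0 := by
    have h4 : V x₀ = ∑ k ∈ K, c k * y k := by
      rw [hV]
      simp only
      rw [← Finset.sum_subset (Finset.filter_subset _ K : K₁ ⊆ K) (fun k hk hk1 => by
        rw [hy]
        simp only
        rw [if_neg (fun h => hk1 h.1), mul_zero])]
      refine Finset.sum_congr rfl fun k hk => ?_
      rw [hy, hex]
      simp only
      by_cases h5 : W / k * oo k = m
      · rw [if_pos ⟨hk, h5⟩, h5, Nat.sub_self, pow_zero, one_mul]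
      · rw [if_neg (fun h => h5 h.2)]
        have h6 : m ≤ W / k * oo k := hmin k hk
        rw [zero_pow (by omega), zero_mul, mul_zero]
    rw [h4]
    exact hc
  have hHV : ∀ᶠ z in 𝓝 x₀, cmb K W c HH z = e z ^ m * V z := by
    filter_upwards [(Finset.eventually_all K₁).2 fun k hk => hHe k hk] with z hz
    unfold cmb
    rw [hV, Finset.mul_sum, ← Finset.sum_subset (Finset.filter_subset _ K : K₁ ⊆ K)
      (fun k hk hk1 => by
        rw [hHH]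
        simp only
        rw [if_neg hk1, zero_pow (Nat.div_pos (Nat.le_of_dvd hW0 (hW k hk)) (hΘ k hk).1).ne',
          mul_zero])]
    refine Finset.sum_congr rfl fun k hk => ?_
    rw [hHH]
    simp only
    rw [if_pos hk, hz k hk, mul_pow, ← pow_mul, mul_comm (oo k) (W / k)]
    have h6 : m ≤ W / k * oo k := hmin k hk
    calc c k * (e z ^ (W / k * oo k) * v k z ^ (W / k))
        = c k * (e z ^ (m + (W / k * oo k - m)) * v k z ^ (W / k)) := by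
          rw [Nat.add_sub_cancel' h6]
      _ = _ := by rw [pow_add]; ring
  refine ⟨kk k₀, m, x₀, ⟨hx₀E, e, d, u, cmb K W c HH, V, he, hde, hdl, hdd, hu, hu0, hdg, hcoef,
    hVh, hVx, hHV, hsub⟩, fun k hk k' o' x' hG => ?_⟩
  have hk1 : k ∈ K₁ := Finset.mem_filter.2 ⟨hk, ne_of_good hd hG⟩
  obtain ⟨h7, h8⟩ := huniq k hk1 k' o' x' hG
  have h9 : GoodAt p g S k (Θ k) E D (kk k₀) (oo k) x₀ :=
    ⟨hx₀E, e, d, u, H k, v k, he, hde, hdl, hdd, hu, hu0, hdg, hH k hk1, hv k hk1, hv0 k hk1,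
      hHe k hk1, hsub⟩
  have h10 := huniq k hk1 _ _ _ h9
  refine ⟨by rw [h7, h10.1], ?_⟩
  rw [h8]
  exact hmin k hk1

end

/-- **T6** -/
theorem theta (hC : CoefStmt) (hO : OrdStmt) : ThetaStmt := by
  classical
  intro p X Z _ _ _ _ _ _ g Δ S e₀ hfib hS hpr K Θ hΘ hLe hne
  have : T2Space X := hfib.hausdorff.1
  have : T2Space Z := hfib.hausdorff.2
  have : CompactSpace X := hfib.compact
  have : ConnectedSpace X := hfib.connected
  have : SecondCountableTopology X := ChartedSpace.secondCountable_of_sigmaCompact (Cm (p + 1)) X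
  have hgc : Continuous g := hfib.hol.continuous
  have hne' := hne
  obtain ⟨k₁, hk₁, x₁, hx₁, hx₁'⟩ := hne'
  have hsm : IsSmallSet (Cm (p + 1)) (g ⁻¹' S) :=
    ⟨hS.1.preimage hgc, H64.Gen.preimage_cov (fun z => hfib.hol z)
      ⟨x₁, hpr.submersive x₁ hx₁⟩ hS.cov⟩
  have hd : Dense (g ⁻¹' S)ᶜ := hsm.dense_compl
  set W : ℕ := ∏ k ∈ K, k with hWdef
  have hW0 : 0 < W := Finset.prod_pos fun k hk => (hΘ k hk).1
  have hW : ∀ k ∈ K, k ∣ W := fun k hk => Finset.dvd_prod_of_mem _ hk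
  have hH : ∀ a k, ∃ H, k ∈ K → IsCoef p g S k (Θ k) a H := by
    intro a k
    by_cases hk : k ∈ K
    · obtain ⟨H, hH⟩ := hC p X Z g Δ S e₀ k (Θ k) hfib hS hpr (hΘ k hk).1 (hΘ k hk).2 a
      exact ⟨H, fun _ => hH⟩
    · exact ⟨fun _ => 0, fun h => absurd h hk⟩
  choose H hH using hH
  have hPa : IsAnalyticSet (Cm (p + 1)) (Pz K H) := pz_analytic hgc hd H hH
  have hPc : IsClosed (Pz K H) := H511.Gen.isAnalyticSet_isClosed hPa
  have hPne : Pz K H ≠ univ := by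
    intro hcon
    have h1 : x₁ ∈ Pz K H := hcon ▸ mem_univ x₁
    have h2 := (hH x₁ k₁ hk₁).2.self_of_nhds hx₁
    rw [h1 k₁ hk₁, zero_mul] at h2
    rcases mul_eq_zero.1 h2 with h3 | h3
    · exact pow_ne_zero _ (jac_chart_ne_zero (mem_chart_source _ (g x₁))) h3
    · exact hx₁' h3
  set ℰ : Set (Set X) := {E | J.IsPrime (Cm (p + 1)) E ∧ (E ⊆ Pz K H ∨ Δ E ≠ 0) ∧
    ∃ D, J.IsPrime (Cm p) D ∧ closure (g '' E) = D} with hℰ
  have hℰf : ℰ.Finite := by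
    refine ((H969.Gen.fin (p + 1) X _ (H511.Gen.isThinSet_of_analytic hPa hPne)).union
      hfib.snc.1).subset ?_
    rintro E ⟨h1, h2 | h2, -⟩
    · exact Or.inl ⟨h1, h2⟩
    · exact Or.inr h2
  have : Countable ℰ := hℰf.countable.to_subtype
  have h1 : ∀ E : ℰ, ∃ y : ℕ → ℂ, (∃ k ∈ K, y k ≠ 0) ∧ ∀ c : ℕ → ℂ, ∑ k ∈ K, c k * y k ≠ 0 →
      ∀ D, closure (g '' E.1) = D → ∃ kE m x, GoodAt p g S W (cmb K W c Θ) E.1 D kE m x ∧
        ∀ k ∈ K, ∀ k' o' x', GoodAt p g S k (Θ k) E.1 D k' o' x' →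
          k' = kE ∧ m ≤ W / k * o' := by
    rintro ⟨E, hE, -, D, hD, hED⟩
    obtain ⟨y, hy, hyc⟩ := min_order hO hfib hS hpr hd hΘ hne hW0 hW hE hD hED
    refine ⟨y, hy, fun c hc D' hD' => ?_⟩
    subst hED
    subst hD'
    exact hyc c hc
  choose y hy hyc using h1
  obtain ⟨c, hc, hB⟩ := gen hgc hd hW (Θ := Θ) H (fun a k hk => hH a k hk) (J := Option ℰ)
    (fun j => j.elim (fun k => Θ k x₁ ^ (W / k)) y) (by
      rintro (_ | E)
      · exact ⟨k₁, hk₁, pow_ne_zero _ hx₁'⟩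
      · exact hy E)
  have hrf : RF g S e₀ W (cmb K W c Θ) := rf_cmb hW (fun k hk => (hΘ k hk).2) c
  have hstd : Std p g Δ S e₀ W (cmb K W c Θ) := ⟨hfib, hS, hpr, hW0, hrf, x₁, hx₁, hc none⟩
  refine ⟨W, cmb K W c Θ, hstd, fun D hD => ?_⟩
  obtain ⟨k, hk, E, kE, o, x, hE, hED, hG, hle⟩ := hLe D hD
  have hWr : (0 : ℝ) < W := by exact_mod_cast hW0
  by_cases hmem : E ⊆ Pz K H ∨ Δ E ≠ 0
  · obtain ⟨k', m, x', hG', hu⟩ := hyc ⟨E, hE, hmem, D, hD, hED⟩ c (hc (some _)) D hED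
    obtain ⟨h2, h3⟩ := hu k hk kE o x hG
    refine ⟨E, k', m, x', hE, hED, hG', ?_⟩
    rw [← h2]
    refine le_trans ?_ hle
    have hkr : (0 : ℝ) < k := by exact_mod_cast (hΘ k hk).1
    have h4 : (m : ℝ) / W ≤ (o : ℝ) / k := by
      rw [div_le_div_iff₀ hWr hkr]
      have h5 : m * k ≤ o * W := by
        calc m * k ≤ W / k * o * k := Nat.mul_le_mul_right k h3
          _ = o * (W / k * k) := by ring
          _ = o * W := by rw [Nat.div_mul_cancel (hW k hk)]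
      exact_mod_cast h5
    linarith
  · obtain ⟨hEP, hΔ'⟩ := not_or.1 hmem
    have hΔ : Δ E = 0 := not_not.1 hΔ'
    obtain ⟨kk, oo, hkk, -, -, hcl, -⟩ := hO p X Z g Δ S e₀ W (cmb K W c Θ) hstd E D hE hD hED
    obtain ⟨x', hx'E, hx'P⟩ := not_subset.1 hEP
    obtain ⟨x₂, hx₂P, hx₂⟩ := _root_.mem_closure_iff.1 (hcl hx'E) _ hPc.isOpen_compl hx'P
    have hoo : oo ≤ 1 := by
      by_contra hcon
      obtain ⟨hx₂E, e, d, u, H', v, he, hde, -, -, -, -, -, hH', hv, -, hHe, -⟩ := hx₂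
      have hex : e x₂ = 0 := (H511.Gen.isLocalEq_mem_iff he).self_of_nhds.1 hx₂E
      have heV : HolV (Cm (p + 1)) e x₂ := H511.Gen.isLocalEq_holAt he
      have h2 := isCoef_unique hd (isCoef_cmb hW (fun k hk => hH x₂ k hk) c) hH'
      refine hB x₂ ?_ e (fun z => e z ^ (oo - 2) * v z) heV
        ((heV.pow _).mul (show HolV (Cm (p + 1)) v x₂ from hv)) hex hde ?_
      · by_contra! h3
        exact hx₂P h3
      · filter_upwards [h2, hHe] with z a1 a2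
        rw [a1, a2, ← mul_assoc, ← pow_add]
        congr 2
        omega
    refine ⟨E, kk, oo, x₂, hE, hED, hx₂, ?_⟩
    rw [hΔ, zero_add]
    have h3 : (oo : ℝ) / W ≤ 1 := by
      rw [div_le_one hWr]
      exact_mod_cast hoo.trans hW0
    have h4 : (1 : ℝ) ≤ kk := by exact_mod_cast hkk
    linarith

end Vale.Agent.P281.H68.TM
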