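import Vale.Agent.P281.H713.EllBound

/-!
# T-M, block M2: the canonical forms `Θ_k = G_k(Λ) (dζ)^k` of a family of elliptic curves

`gk k P` is the lattice sum `∑ λ⁻ᵏ`.  `Cf` is the algebra of the coefficients of canonical relative
forms of weight `N`: functions `A a : Y → ℂ` which change by the factor `G⁻ᴺ`, are holomorphic and are
bounded on slices.  `Cf.form` gives the relative forms.
-/

open scoped Manifold ContDiff Topology
open Set Filter Metric Module

namespace Vale.Agent.P281.H68.TM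

open Vale.Agent.P281 Vale.Agent.P281.MF Vale.Agent.P281.ISO Vale.Agent.P281.ELL
open Vale.Agent.P281.H713

set_option linter.unusedSectionVars false

universe u

/-- the lattice sum of weight `k` -/
noncomputable def gk {n : ℕ} (k : ℕ) (P : (Fin n → ℝ) ≃L[ℝ] ℂ) : ℂ :=
  ∑' m : Fin n → ℤ, ((P fun j => (m j : ℝ))⁻¹) ^ k

section Sum

variable {n : ℕ}

theorem cast_inj {P : (Fin n → ℝ) ≃L[ℝ] ℂ} {m m' : Fin n → ℤ}
    (h : (P fun j => (m j : ℝ)) = P fun j => (m' j : ℝ)) : m = m' := by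
  have h1 := P.injective h
  funext j
  have h2 := congrFun h1 j
  exact_mod_cast h2

/-- the rule of change of the lattice sums -/
theorem gk_change {Q : (Fin n → ℝ) → (Fin n → ℝ) → ℝ} {P P' : (Fin n → ℝ) ≃L[ℝ] ℂ}
    {G : ℂ ≃L[ℂ] ℂ} (hG : IsPeriodChange Q P P' G) (k : ℕ) :
    gk k P' = ((G 1)⁻¹) ^ k * gk k P := by
  classical
  obtain ⟨h1, h2, -⟩ := hG
  choose σ hσ using h1
  have hinj : Function.Injective σ := by
    intro m m' h
    have h3 : G (P fun i => (m i : ℝ)) = G (P fun i => (m' i : ℝ)) := by rw [hσ, hσ, h]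
    exact cast_inj (G.injective h3)
  have hsurj : Function.Surjective σ := by
    intro m'
    obtain ⟨m, hm⟩ := h2 m'
    refine ⟨m, ?_⟩
    rw [hσ] at hm
    exact cast_inj hm
  set e : (Fin n → ℤ) ≃ (Fin n → ℤ) := Equiv.ofBijective σ ⟨hinj, hsurj⟩ with he
  unfold gk
  rw [← tsum_mul_left, ← e.tsum_eq]
  refine tsum_congr fun m => ?_
  have h3 : (P' fun j => ((e m) j : ℝ)) = G 1 * P fun j => (m j : ℝ) := by
    have h4 : (P' fun j => ((e m) j : ℝ)) = G (P fun i => (m i : ℝ)) := (hσ m).symm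
    rw [h4]
    exact clm_C (G : ℂ →L[ℂ] ℂ) _
  rw [h3, mul_inv, mul_pow]

/-- the lattice sum in the letters of the Eisenstein series -/
theorem gk_eq {k : ℕ} (hk : k ≠ 0) (P : (Fin n → ℝ) ≃L[ℝ] ℂ) :
    gk k P = ∑' i : Fin 1 × (Fin n → ℤ), if i ∈ ({((0 : Fin 1), (0 : Fin n → ℤ))} :
      Finset (Fin 1 × (Fin n → ℤ))) then 0 else ((et P (fun _ => (0 : ℂ)) 0 i)⁻¹) ^ k := by
  classical
  set e : (Fin n → ℤ) ≃ Fin 1 × (Fin n → ℤ) :=
    (Equiv.neg (Fin n → ℤ)).trans (Equiv.uniqueProd (Fin n → ℤ) (Fin 1)).symm with he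
  have hem : ∀ m, e m = ((0 : Fin 1), -m) := fun m => by
    rw [he]
    rfl
  rw [← e.tsum_eq]
  unfold gk
  refine tsum_congr fun m => ?_
  rw [hem]
  by_cases hm : m = 0
  · have h1 : (P fun j => (m j : ℝ)) = 0 := by
      have h2 : (fun j => (m j : ℝ)) = (0 : Fin n → ℝ) := by
        funext j
        rw [hm]
        simp
      rw [h2, map_zero]
    rw [if_pos (by rw [hm, neg_zero]; exact Finset.mem_singleton_self _), h1, inv_zero,
      zero_pow hk]
  · rw [if_neg (by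
      rw [Finset.mem_singleton]
      intro h
      apply hm
      have h1 := congrArg Prod.snd h
      exact neg_eq_zero.1 h1)]
    congr 2
    unfold et
    have h2 : (fun j => (((-m : Fin n → ℤ) j : ℤ) : ℝ)) = -fun j => (m j : ℝ) := by
      funext j
      simp
    show _ = (0 : ℂ) - 0 - P fun j => (((-m : Fin n → ℤ) j : ℤ) : ℝ)
    rw [h2, map_neg]
    ring

end Sum

section Fam

variable {E E' : Type} [NormedAddCommGroup E] [NormedSpace ℂ E] [FiniteDimensional ℂ E]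
  [NormedAddCommGroup E'] [NormedSpace ℂ E'] [FiniteDimensional ℂ E']
variable {X Y : Type u} [TopologicalSpace X] [ChartedSpace E X] [IsManifold 𝓘(ℂ, E) ω X]
  [TopologicalSpace Y] [ChartedSpace E' Y] [IsManifold 𝓘(ℂ, E') ω Y]
variable {n : ℕ} {Q : (Fin n → ℝ) → (Fin n → ℝ) → ℝ}
variable {f : X → Y} {S : Set Y} {ι : Type u} {U : ι → Set Y}
  {π : ι → Y → ((Fin n → ℝ) ≃L[ℝ] ℂ)} {u : ι → Y → ℂ → X}

/-- the lattice sums are holomorphic functions of the parameter -/
theorem gk_hol {k : ℕ} (hk : n < k) (hP : IsPeriodFamily E' S Q U π) {a : ι} {y : Y}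
    (hy : y ∈ U a) : HolV E' (fun z => gk k (π a z)) y := by
  classical
  have hid : ∀ x : Y, HolM E' E' (fun z : Y => z) x := fun x => contMDiffAt_id
  have h1 := eis_holV (E := E') (E' := E') (X := Y) (Y := Y) (f := fun z : Y => z) (d := 1) hk hP
    hid (a := a) (x := y) hy
    (q := fun _ _ => (0 : ℂ)) (fun _ => HolV.const (0 : ℂ) y) (w := fun _ => (0 : ℂ))
    (HolV.const (0 : ℂ) y) (F := {((0 : Fin 1), (0 : Fin n → ℤ))}) (fun i hi h0 => by
      apply hi
      rw [Finset.mem_singleton]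
      unfold et at h0
      have h2 : (π a y fun j => (i.2 j : ℝ)) = π a y fun j => ((0 : Fin n → ℤ) j : ℝ) := by
        have h3 : (fun j => (((0 : Fin n → ℤ) j : ℤ) : ℝ)) = (0 : Fin n → ℝ) := by
          funext j
          simp
        rw [h3, map_zero]
        linear_combination -h0
      exact Prod.ext (Subsingleton.elim _ _) (cast_inj h2))
  have h2 : (fun z => gk k (π a z)) = fun z => ∑' i : Fin 1 × (Fin n → ℤ),
      if i ∈ ({((0 : Fin 1), (0 : Fin n → ℤ))} : Finset (Fin 1 × (Fin n → ℤ))) then 0 else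
        ((et (π a z) (fun _ => (0 : ℂ)) 0 i)⁻¹) ^ k := by
    funext z
    exact gk_eq (by omega) (π a z)
  rw [h2]
  exact h1

/-- the lattice sums are bounded on slices -/
theorem gk_slice {k : ℕ} (hk3 : 3 ≤ k)
    (hT : IsTorusFamily E E' f S Q U π u) {r : ℝ} (hr : 0 < r) :
    ∃ C : ℝ, 0 ≤ C ∧ ∀ a y, y ∈ U a → ∀ (v₀ : ℂ) (h : ℂ → ℂ), DifferentiableOn ℂ h (ball v₀ r) →
      (∀ v ∈ ball v₀ r, ∀ v' ∈ ball v₀ r, u a y (h v) = u a y (h v') → v = v') →
      ‖gk k (π a y)‖ * ‖deriv h v₀‖ ^ k ≤ C := by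
  classical
  obtain ⟨C, hC0, hC⟩ := eis_sum_le
  obtain ⟨M, hM⟩ := dlog_bound 1 hr
  set M' : ℝ := max M 1 with hM'
  have hM'0 : 0 < M' := lt_of_lt_of_le one_pos (le_max_right _ _)
  refine ⟨C * M' ^ k, by positivity, fun a y hy v₀ h hh hinj => ?_⟩
  have hv₀ : v₀ ∈ ball v₀ r := mem_ball_self hr
  rcases eq_or_ne (deriv h v₀) 0 with h0 | h0
  · rw [h0, norm_zero, zero_pow (by omega), mul_zero]
    positivity
  have hd0 : 0 < ‖deriv h v₀‖ := norm_pos_iff.2 h0
  set ρ : ℝ := ‖deriv h v₀‖ / M' with hρ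
  have hρ0 : 0 < ρ := by positivity
  have hunif := hT.unif a y hy
  have hest : ∀ c : ℂ, (∀ v ∈ ball v₀ r, h v ≠ c) → ρ ≤ ‖h v₀ - c‖ := by
    intro c hc
    have h1 := hM v₀ (fun v => h v - c) (hh.sub_const c) (fun v hv => sub_ne_zero.2 (hc v hv)) (by
      intro v hv hveq hvinj
      have h2 : h (v 1) = h (v 0) := sub_left_inj.1 (hveq 1)
      have h3 := hinj (v 1) (hv 1) (v 0) (hv 0) (by rw [h2])
      exact absurd (hvinj h3) (by decide))
    rw [deriv_sub_const] at h1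
    rw [hρ, div_le_iff₀ hM'0, mul_comm]
    refine h1.trans ?_
    gcongr
    exact le_max_left _ _
  have hsep : ∀ m : Fin n → ℤ, m ≠ 0 → ρ ≤ ‖π a y fun j => (m j : ℝ)‖ := by
    intro m hm
    have h1 := hest (h v₀ + π a y fun j => (m j : ℝ)) (by
      intro v hv hv2
      have h2 := hinj v₀ hv₀ v hv ((hunif _ _).2.2 ⟨m, hv2⟩)
      rw [← h2] at hv2
      have h3 : (π a y fun j => (m j : ℝ)) = 0 := by
        linear_combination -hv2
      apply hm
      have h4 := (map_eq_zero_iff (π a y) (π a y).injective).1 h3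
      funext j
      have h5 := congrFun h4 j
      have h6 : (m j : ℝ) = 0 := h5
      exact_mod_cast h6)
    have h2 : h v₀ - (h v₀ + π a y fun j => (m j : ℝ)) = -(π a y fun j => (m j : ℝ)) := by ring
    rwa [h2, norm_neg] at h1
  -- the sum over the nonzero vectors
  have hs := hC {m : Fin n → ℤ // m ≠ 0} (fun m => π a y fun j => (m.1 j : ℝ)) ρ hρ0
    (fun m => hsep m.1 m.2) (fun m m' hmm => by
      have h1 : (π a y fun j => (m.1 j : ℝ)) - (π a y fun j => (m'.1 j : ℝ)) =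
          π a y fun j => (((m.1 - m'.1 : Fin n → ℤ) j : ℤ) : ℝ) := by
        have h2 : (fun j => (((m.1 - m'.1 : Fin n → ℤ) j : ℤ) : ℝ)) =
            (fun j => (m.1 j : ℝ)) - fun j => (m'.1 j : ℝ) := by
          funext j
          simp
        rw [h2, map_sub]
      rw [h1]
      exact hsep _ (sub_ne_zero.2 fun h => hmm (Subtype.ext h))) k hk3
  have hz : ∀ m : Fin n → ℤ, m = 0 → ((π a y fun j => (m j : ℝ))⁻¹) ^ k = 0 := by
    intro m hm
    have h1 : (π a y fun j => (m j : ℝ)) = 0 := by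
      have h2 : (fun j => (m j : ℝ)) = (0 : Fin n → ℝ) := by
        funext j
        rw [hm]
        simp
      rw [h2, map_zero]
    rw [h1, inv_zero, zero_pow (by omega)]
  have hg : gk k (π a y) = ∑' m : {m : Fin n → ℤ // m ≠ 0},
      ((π a y fun j => (m.1 j : ℝ))⁻¹) ^ k := by
    unfold gk
    refine (tsum_subtype_eq_of_support_subset (s := {m : Fin n → ℤ | m ≠ 0}) ?_).symm
    intro m hm hm0
    exact hm (hz m hm0)
  have h1 : ‖gk k (π a y)‖ ≤ C * (ρ⁻¹) ^ k := by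
    rw [hg]
    exact (norm_tsum_le_tsum_norm hs.1).trans hs.2
  calc ‖gk k (π a y)‖ * ‖deriv h v₀‖ ^ k
      ≤ C * (ρ⁻¹) ^ k * ‖deriv h v₀‖ ^ k := by gcongr
    _ = C * (ρ⁻¹ * ‖deriv h v₀‖) ^ k := by rw [mul_pow]; ring
    _ = C * M' ^ k := by
        congr 2
        rw [hρ]
        field_simp

/-- the coefficients of the canonical relative forms of weight `N` -/
structure Cf (E' : Type) [NormedAddCommGroup E'] [NormedSpace ℂ E'] [ChartedSpace E' Y]
    (Q : (Fin n → ℝ) → (Fin n → ℝ) → ℝ) (U : ι → Set Y) (π : ι → Y → ((Fin n → ℝ) ≃L[ℝ] ℂ))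
    (u : ι → Y → ℂ → X) (N : ℕ) (A : ι → Y → ℂ) : Prop where
  change : ∀ a b y, y ∈ U a → y ∈ U b → ∀ G : ℂ ≃L[ℂ] ℂ, IsPeriodChange Q (π a y) (π b y) G →
    A b y = ((G 1)⁻¹) ^ N * A a y
  hol : ∀ a y, y ∈ U a → HolV E' (A a) y
  bound : ∀ r : ℝ, 0 < r → ∃ C : ℝ, 0 ≤ C ∧ ∀ a y, y ∈ U a → ∀ (v₀ : ℂ) (h : ℂ → ℂ),
    DifferentiableOn ℂ h (ball v₀ r) →
    (∀ v ∈ ball v₀ r, ∀ v' ∈ ball v₀ r, u a y (h v) = u a y (h v') → v = v') →
    ‖A a y‖ * ‖deriv h v₀‖ ^ N ≤ C

theorem cf_gk {k : ℕ} (hk : n < k) (hk3 : 3 ≤ k) (hT : IsTorusFamily E E' f S Q U π u) :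
    Cf E' Q U π u k (fun a y => gk k (π a y)) where
  change := fun _ _ _ _ _ _ hG => gk_change hG k
  hol := fun _ _ hy => gk_hol hk hT.toIsPeriodFamily hy
  bound := fun _ hr => gk_slice hk3 hT hr

variable {N N' : ℕ} {A B : ι → Y → ℂ}

theorem Cf.one : Cf E' Q U π u 0 (fun _ _ => (1 : ℂ)) where
  change := fun _ _ _ _ _ _ _ => by simp
  hol := fun _ y _ => HolV.const (1 : ℂ) y
  bound := fun r _ => ⟨1, zero_le_one, fun _ _ _ _ _ _ _ => by simp⟩

theorem Cf.zero (N : ℕ) : Cf E' Q U π u N (fun _ _ => (0 : ℂ)) where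
  change := fun _ _ _ _ _ _ _ => by simp
  hol := fun _ y _ => HolV.const (0 : ℂ) y
  bound := fun r _ => ⟨0, le_rfl, fun _ _ _ _ _ _ _ => by simp⟩

theorem Cf.mul (hA : Cf E' Q U π u N A) (hB : Cf E' Q U π u N' B) :
    Cf E' Q U π u (N + N') (fun a y => A a y * B a y) where
  change := fun a b y ha hb G hG => by
    rw [hA.change a b y ha hb G hG, hB.change a b y ha hb G hG, pow_add]
    ring
  hol := fun a y hy => (hA.hol a y hy).mul (hB.hol a y hy)
  bound := fun r hr => by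
    obtain ⟨C, hC0, hC⟩ := hA.bound r hr
    obtain ⟨C', hC'0, hC'⟩ := hB.bound r hr
    refine ⟨C * C', by positivity, fun a y hy v₀ h hh hi => ?_⟩
    have h1 := hC a y hy v₀ h hh hi
    have h2 := hC' a y hy v₀ h hh hi
    calc ‖A a y * B a y‖ * ‖deriv h v₀‖ ^ (N + N')
        = (‖A a y‖ * ‖deriv h v₀‖ ^ N) * (‖B a y‖ * ‖deriv h v₀‖ ^ N') := by
          rw [norm_mul, pow_add]
          ring
      _ ≤ C * C' := by gcongr

theorem Cf.add (hA : Cf E' Q U π u N A) (hB : Cf E' Q U π u N B) :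
    Cf E' Q U π u N (fun a y => A a y + B a y) where
  change := fun a b y ha hb G hG => by
    rw [hA.change a b y ha hb G hG, hB.change a b y ha hb G hG]
    ring
  hol := fun a y hy => (hA.hol a y hy).add (hB.hol a y hy)
  bound := fun r hr => by
    obtain ⟨C, hC0, hC⟩ := hA.bound r hr
    obtain ⟨C', hC'0, hC'⟩ := hB.bound r hr
    refine ⟨C + C', by positivity, fun a y hy v₀ h hh hi => ?_⟩
    have h1 := hC a y hy v₀ h hh hi
    have h2 := hC' a y hy v₀ h hh hi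
    calc ‖A a y + B a y‖ * ‖deriv h v₀‖ ^ N
        ≤ (‖A a y‖ + ‖B a y‖) * ‖deriv h v₀‖ ^ N := by
          gcongr
          exact norm_add_le _ _
      _ = ‖A a y‖ * ‖deriv h v₀‖ ^ N + ‖B a y‖ * ‖deriv h v₀‖ ^ N := by ring
      _ ≤ C + C' := add_le_add h1 h2

theorem Cf.congr (hA : Cf E' Q U π u N A) (hN : N = N') (hAB : ∀ a y, A a y = B a y) :
    Cf E' Q U π u N' B := by
  subst hN
  have h1 : A = B := by
    funext a y
    exact hAB a y
  rw [← h1]
  exact hA

theorem Cf.smul (hA : Cf E' Q U π u N A) (c : ℂ) : Cf E' Q U π u N (fun a y => c * A a y) where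
  change := fun a b y ha hb G hG => by
    rw [hA.change a b y ha hb G hG]
    ring
  hol := fun a y hy => (HolV.const c y).mul (hA.hol a y hy)
  bound := fun r hr => by
    obtain ⟨C, hC0, hC⟩ := hA.bound r hr
    refine ⟨‖c‖ * C, by positivity, fun a y hy v₀ h hh hi => ?_⟩
    rw [norm_mul, mul_assoc]
    exact mul_le_mul_of_nonneg_left (hC a y hy v₀ h hh hi) (norm_nonneg _)

theorem Cf.pow (hA : Cf E' Q U π u N A) (m : ℕ) :
    Cf E' Q U π u (N * m) (fun a y => A a y ^ m) := by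
  induction m with
  | zero => exact Cf.one.congr (by simp) (fun a y => by simp)
  | succ m ih => exact (ih.mul hA).congr (by ring) (fun a y => by rw [pow_succ])

theorem Cf.sum {J : Type*} (T : Finset J) {A : J → ι → Y → ℂ}
    (hA : ∀ j ∈ T, Cf E' Q U π u N (A j)) :
    Cf E' Q U π u N (fun a y => ∑ j ∈ T, A j a y) := by
  classical
  induction T using Finset.induction_on with
  | empty => exact (Cf.zero N).congr rfl (fun a y => by simp)
  | insert j T hj ih =>
    exact ((hA j (Finset.mem_insert_self _ _)).add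
      (ih fun i hi => hA i (Finset.mem_insert_of_mem hi))).congr rfl
      (fun a y => by rw [Finset.sum_insert hj])

theorem Cf.prod {J : Type*} (T : Finset J) {A : J → ι → Y → ℂ} {w : J → ℕ}
    (hA : ∀ j ∈ T, Cf E' Q U π u (w j) (A j)) :
    Cf E' Q U π u (∑ j ∈ T, w j) (fun a y => ∏ j ∈ T, A j a y) := by
  classical
  induction T using Finset.induction_on with
  | empty => exact Cf.one.congr (by simp) (fun a y => by simp)
  | insert j T hj ih =>
    exact ((hA j (Finset.mem_insert_self _ _)).mul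
      (ih fun i hi => hA i (Finset.mem_insert_of_mem hi))).congr
      (by rw [Finset.sum_insert hj]) (fun a y => by rw [Finset.prod_insert hj])

/-- the relative form with coefficient `A` -/
theorem Cf.form (hA : Cf E' Q U π u N A) (hT : IsTorusFamily E E' f S Q U π u)
    (hf : ∀ x, HolM E E' f x) (e₀ : E ≃L[ℂ] (E' × ℂ)) :
    ∃ Θ : X → ℂ, (∀ (𝒜 : Set (Set X)) (κ : Set X → ℕ), RelForm f S e₀ N 𝒜 κ Θ) ∧
      ∀ a x ζ, f x ∈ U a → TorCoord E E' f u a x ζ →
        Θ x = A a (f x) * JP e₀ (dM E E' f x) (dV E ζ x) ^ N := by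
  classical
  have hA₀ : ∀ a b y, y ∈ U a → y ∈ U b → ∀ (G : ℂ ≃L[ℂ] ℂ) (c : ℂ),
      IsPeriodChange Q (π a y) (π b y) G → (∀ w, u b y (G w + c) = u a y w) →
      ∀ w : ℂ, (fun a y (_ : ℂ) => A a y) b y (G w + c) =
        ((G 1)⁻¹) ^ N * (fun a y (_ : ℂ) => A a y) a y w :=
    fun a b y ha hb G c hG _ w => hA.change a b y ha hb G hG
  obtain ⟨Θ, hΘ⟩ := exists_val hT hf e₀ (N := N) (fun a y (_ : ℂ) => A a y) hA₀
  refine ⟨Θ, fun 𝒜 κ => ?_, fun a x ζ hx hζ => hΘ a x ζ hx hζ⟩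
  have h1 : RelForm f S e₀ N 𝒜 (fun _ => 0) Θ := by
    refine ⟨hol_of_local hf e₀ ?_, ?_⟩
    · intro x hx T e _ _
      obtain ⟨a, ha⟩ := (hT.cover (f x)).1 hx
      obtain ⟨ζ, h1, h2, h3⟩ := hT.coord a x ha
      refine ⟨ζ, fun z => A a (f z), h1, HolV.comp (E' := E') (h := A a) (hA.hol a _ ha) (hf x), ?_⟩
      filter_upwards [HolV.eventually (show HolV E ζ x from h1),
        eventually_eventually_nhds.2 h2, ker_eventually hf e₀ h1 h3,
        (hf x).continuousAt.eventually ((hT.isOpen a).mem_nhds ha)] with z h4 h5 h6 h7 _ _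
      simp only [pow_zero, Finset.prod_const_one, mul_one]
      exact hΘ a z ζ h7 ⟨h4, h5, h6⟩
    · intro r hr
      obtain ⟨C, hC0, hC⟩ := hA.bound r hr
      exact ⟨C, fun v₀ q q1 q2 q3 q4 q5 P q6 =>
        val_bound (𝒲 := 𝒜) hT hf e₀ (A := fun a y (_ : ℂ) => A a y) hA₀ hΘ hr
          (fun a y hy v₀ h hh hinj hav => hC a y hy v₀ h hh hinj) q1 q2 q3 q4 q5 q6⟩
  exact h1.mono fun D => Nat.zero_le _

end Fam

end Vale.Agent.P281.H68.TM
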